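import Vale.Agent.Lib.P262B.Split

/-!
# The two children of a node
-/

open Finset

namespace Vale.Agent.Lib.P262B

set_option linter.unusedSectionVars false
set_option linter.unusedSimpArgs false
set_option linter.unusedVariables false

variable {ι : Type*} [Fintype ι] [DecidableEq ι] {d : ℕ}

/-- One child of a split. -/
structure ChildOf (h h₂ : ι) (R : Finset ι) (D : (ι → ℝ) → ℝ) (e e' : ι) (RC : Finset ι)
    (ς : ℝ) : Prop where
  he : (e = h ∧ e' = h₂) ∨ (e = h₂ ∧ e' = h)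
  hRC : RC ⊆ R
  hς : ς = 1 ∨ ς = -1
  hsum : ∀ w : ι → ℝ, ∑ i ∈ RC, w i = 1 / 2 * ∑ i ∈ R, w i + ς * D w

variable {p : Par d} {v : ι → Fin d → ℝ} {L : Finset (Fin d)} {G : Finset ι} {x y : Fin d → ℝ}
  {h h₂ ea eb e e' : ι} {R R₁ R₂ RC : Finset ι} {D : (ι → ℝ) → ℝ} {m : Fin d → ℝ} {ς : ℝ}

namespace ChildOf

lemma abs_mul_ς (ch : ChildOf h h₂ R D e e' RC ς) (a : ℝ) : |ς * a| = |a| := by
  rcases ch.hς with h1 | h1 <;> simp [h1]

lemma h_ne (sd : SplitData p v L G x y h h₂ ea eb R R₁ R₂ D m) : h ≠ h₂ := by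
  intro h0
  exact sd.hh (by simp [h0])

lemma h_notin (sd : SplitData p v L G x y h h₂ ea eb R R₁ R₂ D m) : h ∉ R := by
  intro h0
  exact sd.hh (Finset.mem_insert_of_mem h0)

lemma e_notin (sd : SplitData p v L G x y h h₂ ea eb R R₁ R₂ D m)
    (ch : ChildOf h h₂ R D e e' RC ς) : e ∉ R := by
  rcases ch.he with ⟨h1, _⟩ | ⟨h1, _⟩
  · rw [h1]
    exact h_notin sd
  · rw [h1]
    exact sd.hh₂

lemma e_notin_RC (sd : SplitData p v L G x y h h₂ ea eb R R₁ R₂ D m)
    (ch : ChildOf h h₂ R D e e' RC ς) : e ∉ RC := fun h0 => e_notin sd ch (ch.hRC h0)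

lemma sum_R (sd : SplitData p v L G x y h h₂ ea eb R R₁ R₂ D m) (w : ι → ℝ) :
    ∑ i ∈ G, w i = w h + (w h₂ + ∑ i ∈ R, w i) := sum_decomp sd.hG sd.hh sd.hh₂ w

lemma sum_G (sd : SplitData p v L G x y h h₂ ea eb R R₁ R₂ D m)
    (ch : ChildOf h h₂ R D e e' RC ς) (w : ι → ℝ) :
    ∑ i ∈ G, w i = w e + (w e' + ∑ i ∈ R, w i) := by
  rw [sum_R sd]
  rcases ch.he with ⟨h1, h2⟩ | ⟨h1, h2⟩
  · rw [h1, h2]
  · rw [h1, h2]
    ring

lemma sum_C (sd : SplitData p v L G x y h h₂ ea eb R R₁ R₂ D m)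
    (ch : ChildOf h h₂ R D e e' RC ς) (w : ι → ℝ) :
    ∑ i ∈ insert e RC, w i = w e + ∑ i ∈ RC, w i :=
  Finset.sum_insert (e_notin_RC sd ch)

lemma R_sub (sd : SplitData p v L G x y h h₂ ea eb R R₁ R₂ D m) : R ⊆ G := by
  rw [sd.hG]
  intro i hi
  exact Finset.mem_insert_of_mem (Finset.mem_insert_of_mem hi)

lemma e_mem (sd : SplitData p v L G x y h h₂ ea eb R R₁ R₂ D m)
    (ch : ChildOf h h₂ R D e e' RC ς) : e ∈ G := by
  rw [sd.hG]
  rcases ch.he with ⟨h1, _⟩ | ⟨h1, _⟩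
  · rw [h1]
    exact Finset.mem_insert_self _ _
  · rw [h1]
    exact Finset.mem_insert_of_mem (Finset.mem_insert_self _ _)

lemma sub_G (sd : SplitData p v L G x y h h₂ ea eb R R₁ R₂ D m)
    (ch : ChildOf h h₂ R D e e' RC ς) : insert e RC ⊆ G := by
  intro i hi
  rcases Finset.mem_insert.1 hi with rfl | hi'
  · exact e_mem sd ch
  · exact R_sub sd (ch.hRC hi')

lemma mu_mono (hs : insert e RC ⊆ G) (j : Fin d) : mu v (insert e RC) j ≤ mu v G j :=
  Finset.sum_le_sum_of_subset_of_nonneg hs (fun _ _ _ => sq_nonneg _)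

/-- The energies of a child. -/
lemma energy (hv : ∀ i, ∑ j, (v i j) ^ 2 ≤ 1) (sd : SplitData p v L G x y h h₂ ea eb R R₁ R₂ D m)
    (ch : ChildOf h h₂ R D e e' RC ς) {j : Fin d} (hj : p.Lam ≤ mu v G j) :
    23 / 50 * mu v G j ≤ mu v (insert e RC) j ∧ mu v (insert e RC) j ≤ 27 / 50 * mu v G j := by
  have h1 : mu v G j = (v e j) ^ 2 + ((v e' j) ^ 2 + ∑ i ∈ R, (v i j) ^ 2) :=
    sum_G sd ch (fun i => (v i j) ^ 2)
  have h2 : mu v (insert e RC) j = (v e j) ^ 2 + ∑ i ∈ RC, (v i j) ^ 2 :=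
    sum_C sd ch (fun i => (v i j) ^ 2)
  have h3 : ∑ i ∈ RC, (v i j) ^ 2 = 1 / 2 * ∑ i ∈ R, (v i j) ^ 2 + ς * D (rowE v j) :=
    ch.hsum (rowE v j)
  have h4 : |ς * D (rowE v j)| ≤ p.ε * Real.sqrt (mu v G j) + mu v G j / 50 + 21 := by
    rw [ch.abs_mul_ς]
    exact sd.bE j hj
  have h5 := coord_sq_le hv e j
  have h6 := coord_sq_le hv e' j
  have h7 := sq_nonneg (v e j)
  have h8 := sq_nonneg (v e' j)
  have hμ : 2200 ≤ mu v G j := p.hLam2.trans hj
  have hs : p.ε * Real.sqrt (mu v G j) ≤ mu v G j / 4600 := by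
    have h9 : (46 : ℝ) ≤ Real.sqrt (mu v G j) := by
      refine Real.le_sqrt_of_sq_le ?_
      linarith
    have h10 : Real.sqrt (mu v G j) * Real.sqrt (mu v G j) = mu v G j :=
      Real.mul_self_sqrt (by linarith)
    have h11 : p.ε * Real.sqrt (mu v G j) ≤ 1 / 100 * Real.sqrt (mu v G j) :=
      mul_le_mul_of_nonneg_right p.hε1 (by linarith)
    nlinarith
  have h9 := abs_le.1 h4
  constructor <;> nlinarith [h9.1, h9.2]

/-- The mixed moments of a child. -/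
lemma orth (hv : ∀ i, ∑ j, (v i j) ^ 2 ≤ 1) (sd : SplitData p v L G x y h h₂ ea eb R R₁ R₂ D m)
    (ch : ChildOf h h₂ R D e e' RC ς) (horth : OInv p v G) : OInv p v (insert e RC) := by
  intro j l hjl hj hl
  have hs := sub_G sd ch
  have hj' : p.Lam ≤ mu v G j := hj.trans (mu_mono hs j)
  have hl' : p.Lam ≤ mu v G l := hl.trans (mu_mono hs l)
  have h0 := horth j l hjl hj' hl'
  have h1 : Mx v G j l = v e j * v e l + (v e' j * v e' l + ∑ i ∈ R, v i j * v i l) :=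
    sum_G sd ch (fun i => v i j * v i l)
  have h2 : Mx v (insert e RC) j l = v e j * v e l + ∑ i ∈ RC, v i j * v i l :=
    sum_C sd ch (fun i => v i j * v i l)
  have h3 : ∑ i ∈ RC, v i j * v i l = 1 / 2 * ∑ i ∈ R, v i j * v i l + ς * D (rowP v j l) :=
    ch.hsum (rowP v j l)
  have h4 : |ς * D (rowP v j l)| ≤ p.ε * Real.sqrt (mu v G l) + ((d : ℝ) ^ 2 + d + 1) := by
    rw [ch.abs_mul_ς]
    exact sd.bO j l
  have hone : ∀ i, |v i j * v i l| ≤ 1 := by
    intro i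
    rw [abs_mul]
    have h5 := coord_abs_le hv i j
    have h6 := coord_abs_le hv i l
    nlinarith [abs_nonneg (v i j), abs_nonneg (v i l)]
  have h5 := abs_le.1 (hone e)
  have h6 := abs_le.1 (hone e')
  have h7 : Mx v (insert e RC) j l = 1 / 2 * Mx v G j l + (1 / 2 * (v e j * v e l)
      - 1 / 2 * (v e' j * v e' l)) + ς * D (rowP v j l) := by
    rw [h2, h3, h1]
    ring
  -- comparison of square roots
  have hen := (energy hv sd ch hl').1
  have hμ0 : 0 ≤ mu v G l := le_trans p.Lam_pos.le hl'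
  have hsq : Real.sqrt (mu v G l) ≤ 3 / 2 * Real.sqrt (mu v (insert e RC) l) := by
    have h8 : (3 / 2 : ℝ) * Real.sqrt (mu v (insert e RC) l)
        = Real.sqrt ((3 / 2) ^ 2 * mu v (insert e RC) l) := by
      rw [Real.sqrt_mul (by norm_num), Real.sqrt_sq (by norm_num)]
    rw [h8]
    refine Real.sqrt_le_sqrt ?_
    nlinarith
  have hδ : p.δ = 7 * p.ε := rfl
  have hε0 := p.hε0
  have hs0 := Real.sqrt_nonneg (mu v (insert e RC) l)
  have hs1 := Real.sqrt_nonneg (mu v G l)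
  have hΔ := p.hΔ
  have h8 : (1 / 2 * p.δ + p.ε) * Real.sqrt (mu v G l)
      ≤ p.δ * Real.sqrt (mu v (insert e RC) l) := by
    have h9 : (1 / 2 * p.δ + p.ε) * Real.sqrt (mu v G l)
        ≤ (1 / 2 * p.δ + p.ε) * (3 / 2 * Real.sqrt (mu v (insert e RC) l)) :=
      mul_le_mul_of_nonneg_left hsq (by rw [hδ]; positivity)
    have h10 : (1 / 2 * p.δ + p.ε) * (3 / 2 * Real.sqrt (mu v (insert e RC) l))
        ≤ p.δ * Real.sqrt (mu v (insert e RC) l) := by
      rw [hδ]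
      nlinarith [mul_nonneg hε0 hs0]
    linarith
  have h9 := abs_le.1 h0
  have h10 := abs_le.1 h4
  rw [h7, abs_le]
  constructor <;> nlinarith [h9.1, h9.2, h10.1, h10.2, h5.1, h5.2, h6.1, h6.2]

lemma pm_e_le (sd : SplitData p v L G x y h h₂ ea eb R R₁ R₂ D m)
    (ch : ChildOf h h₂ R D e e' RC ς) : pm v L e ≤ pm v L h := by
  rcases ch.he with ⟨h1, _⟩ | ⟨h1, _⟩
  · rw [h1]
  · rw [h1]
    exact sd.hh₂h

lemma top (sd : SplitData p v L G x y h h₂ ea eb R R₁ R₂ D m)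
    (ch : ChildOf h h₂ R D e e' RC ς) : Top v L (insert e RC) e := by
  refine ⟨Finset.mem_insert_self _ _, ?_⟩
  intro i hi
  rcases Finset.mem_insert.1 hi with rfl | hi'
  · exact le_rfl
  · have h1 := sd.hR2 i (ch.hRC hi')
    rcases ch.he with ⟨h2, _⟩ | ⟨h2, _⟩
    · rw [h2]
      exact h1.trans sd.hh₂h
    · rw [h2]
      exact h1

lemma Ep_child (sd : SplitData p v L G x y h h₂ ea eb R R₁ R₂ D m)
    (ch : ChildOf h h₂ R D e e' RC ς) :
    Ep v L (insert e RC) e = ∑ i ∈ RC, pm v L i := by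
  unfold Ep
  rw [Finset.erase_insert (e_notin_RC sd ch)]

lemma Ep_parent (sd : SplitData p v L G x y h h₂ ea eb R R₁ R₂ D m) :
    Ep v L G h = pm v L h₂ + ∑ i ∈ R, pm v L i := by
  unfold Ep
  rw [sd.hG, Finset.erase_insert sd.hh, Finset.sum_insert sd.hh₂]

lemma Ep_nonneg (L : Finset (Fin d)) (C : Finset ι) (i : ι) : 0 ≤ Ep v L C i :=
  Finset.sum_nonneg fun _ _ => pm_nonneg L _

lemma Ep_contract (sd : SplitData p v L G x y h h₂ ea eb R R₁ R₂ D m)
    (ch : ChildOf h h₂ R D e e' RC ς) :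
    Ep v L (insert e RC) e ≤ 43 / 50 * Ep v L G h := by
  rw [Ep_child sd ch, Ep_parent sd]
  refine low_contract (pm_nonneg L h₂) (Finset.sum_nonneg fun _ _ => pm_nonneg L _) p.hε0 p.hε1
    (Finset.sum_le_sum_of_subset_of_nonneg ch.hRC (fun _ _ _ => pm_nonneg L _)) ?_
  have h1 : ∑ i ∈ RC, pm v L i = 1 / 2 * ∑ i ∈ R, pm v L i + ς * D (pm v L) := ch.hsum (pm v L)
  have h2 : |ς * D (pm v L)| ≤ _ := (ch.abs_mul_ς _).le.trans sd.bPm
  have h3 := (abs_le.1 h2).2
  linarith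

lemma sg_erase (sd : SplitData p v L G x y h h₂ ea eb R R₁ R₂ D m) (j : Fin d) :
    sg v (G.erase h) j = v h₂ j + sg v R j := by
  unfold sg
  rw [sd.hG, Finset.erase_insert sd.hh, Finset.sum_insert sd.hh₂]

lemma Sp_le (sd : SplitData p v L G x y h h₂ ea eb R R₁ R₂ D m)
    (ch : ChildOf h h₂ R D e e' RC ς) :
    Sp v L (insert e RC) e ≤ Sp v L G h / 2 +
      (1 / 2 + p.ε + 2 * (p.P : ℝ) + 5) * Real.sqrt (Ep v L G h) := by
  have hRC : (insert e RC).erase e = RC := Finset.erase_insert (e_notin_RC sd ch)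
  unfold Sp
  rw [hRC]
  have h1 : sg v RC = (fun j => (1 / 2 : ℝ) * sg v R j) + (fun j => ς * D (rowC v j)) := by
    funext j
    exact ch.hsum (rowC v j)
  have h2 := nrm_add_le L (fun j => (1 / 2 : ℝ) * sg v R j) (fun j => ς * D (rowC v j))
  rw [← h1, nrm_scale, nrm_scale] at h2
  have h3 : |(1 / 2 : ℝ)| = 1 / 2 := by norm_num
  have h4 : |ς| = 1 := by
    rcases ch.hς with h5 | h5 <;> simp [h5]
  rw [h3, h4, one_mul] at h2
  have h5 : sg v R = sg v (G.erase h) + (fun j => (-1 : ℝ) * v h₂ j) := by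
    funext j
    have := sg_erase sd j
    simp only [Pi.add_apply]
    linarith
  have h6 := nrm_add_le L (sg v (G.erase h)) (fun j => (-1 : ℝ) * v h₂ j)
  rw [← h5, nrm_scale] at h6
  simp only [abs_neg, abs_one, one_mul] at h6
  have h7 : nrm L (v h₂) = Real.sqrt (pm v L h₂) := rfl
  have h8 := sd.bN
  have h9 : Real.sqrt (pm v L h₂) ≤ Real.sqrt (Ep v L G h) := by
    refine Real.sqrt_le_sqrt ?_
    rw [Ep_parent sd]
    have : 0 ≤ ∑ i ∈ R, pm v L i := Finset.sum_nonneg fun _ _ => pm_nonneg L _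
    linarith
  have h10 : Real.sqrt (∑ i ∈ R, pm v L i) ≤ Real.sqrt (Ep v L G h) := by
    refine Real.sqrt_le_sqrt ?_
    rw [Ep_parent sd]
    have := pm_nonneg (v := v) L h₂
    linarith
  have h11 : (p.ε + 2 * (p.P : ℝ) + 5) * Real.sqrt (∑ i ∈ R, pm v L i)
      ≤ (p.ε + 2 * (p.P : ℝ) + 5) * Real.sqrt (Ep v L G h) :=
    mul_le_mul_of_nonneg_left h10 (by
      have := p.hε0
      positivity)
  rw [h7] at h6
  nlinarith

/-- The slack pays for the growth of the block at the midpoint. -/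
lemma xi_child (sd : SplitData p v L G x y h h₂ ea eb R R₁ R₂ D m)
    (ch : ChildOf h h₂ R D e e' RC ς) :
    XiG p v L (insert e RC) e ≤ XiG p v L G h ∧
    XiG p v L (insert e RC) e +
      (1 / 2 * Real.sqrt (pm v L h) * Real.sqrt (pm v L h₂) + 1 / 4 * (Real.sqrt (pm v L h₂)) ^ 2
      + 1 / 2 * Real.sqrt (pm v L h) * Sp v L G h - 1 / 4 * (Sp v L G h) ^ 2
      + 2 * (Real.sqrt p.B + 1) * p.ε * Real.sqrt (∑ i ∈ R, pm v L i)
      + (2 * (p.P : ℝ) + 22 + p.ε ^ 2) * (Real.sqrt (∑ i ∈ R, pm v L i)) ^ 2) ≤ XiG p v L G h := by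
  have hε0 := p.hε0
  have hP := p.P_pos
  have hE2 : 0 ≤ ∑ i ∈ R, pm v L i := Finset.sum_nonneg fun _ _ => pm_nonneg L _
  have hp2 := pm_nonneg (v := v) L h₂
  have hpar := Ep_parent (v := v) sd
  refine xi_step (κ := 1 / 2 + p.ε + 2 * (p.P : ℝ) + 5) p.A_nonneg p.γ_nonneg (by positivity)
    (by positivity) (Real.sqrt_nonneg _) (Real.sqrt_nonneg _)
    (Real.sqrt_le_sqrt (pm_e_le sd ch)) (Real.sqrt_nonneg _) (Real.sqrt_nonneg _) ?_
    (nrm_nonneg _ _) (nrm_nonneg _ _) (Sp_le sd ch) (Real.sqrt_nonneg _) ?_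
    (Real.sqrt_le_sqrt sd.hh₂h) (Real.sqrt_nonneg _) ?_ p.hγ p.hA p.hη
  · rw [Real.sq_sqrt (Ep_nonneg L _ _), Real.sq_sqrt (Ep_nonneg L _ _)]
    exact Ep_contract sd ch
  · refine Real.sqrt_le_sqrt ?_
    rw [hpar]
    linarith
  · refine Real.sqrt_le_sqrt ?_
    rw [hpar]
    linarith

/-- The potential at an old end of a child. -/
lemma endP_old (sd : SplitData p v L G x y h h₂ ea eb R R₁ R₂ D m)
    (ch : ChildOf h h₂ R D e e' RC ς) {z : Fin d → ℝ} (hz : EndP p v L G h z) :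
    EndP p v L (insert e RC) e z := by
  unfold EndP at hz ⊢
  have := (xi_child sd ch).1
  linarith

/-- The potential at the midpoint. -/
lemma endP_mid (sd : SplitData p v L G x y h h₂ ea eb R R₁ R₂ D m)
    (ch : ChildOf h h₂ R D e e' RC ς) (hx : EndP p v L G h x) (hy : EndP p v L G h y) :
    EndP p v L (insert e RC) e m := by
  unfold EndP at hx hy ⊢
  have h1 := (xi_child sd ch).2
  have h2 := sd.mP
  linarith

/-- Coordinate bound at an old end. -/
lemma ainv_old (sd : SplitData p v L G x y h h₂ ea eb R R₁ R₂ D m)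
    (ch : ChildOf h h₂ R D e e' RC ς) {z : Fin d → ℝ} (hz : AInv p v G z) :
    AInv p v (insert e RC) z := by
  intro j hj
  have hs := sub_G sd ch
  have hm := mu_mono (v := v) hs j
  obtain ⟨ℓ, h1, h2⟩ := hz j (hj.trans hm)
  refine ⟨ℓ, ?_, h2⟩
  rcases h1 with h1 | h1
  · exact Or.inl h1
  · exact Or.inr (hm.trans h1)

/-- Levels do not exceed the length of the band. -/
lemma ell_le {ℓ : ℕ} {μ : ℝ} (h1 : ℓ = 0 ∨ μ ≤ p.c * (11 / 20 : ℝ) ^ ℓ) (h2 : p.Lam ≤ μ) :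
    ℓ ≤ p.N := by
  by_contra hcon
  push Not at hcon
  rcases h1 with h1 | h1
  · omega
  · have h3 : (11 / 20 : ℝ) ^ ℓ < (11 / 20 : ℝ) ^ p.N :=
      pow_lt_pow_right_of_lt_one₀ (by norm_num) (by norm_num) hcon
    have h4 : p.c * (11 / 20 : ℝ) ^ ℓ < p.c * (11 / 20 : ℝ) ^ p.N :=
      mul_lt_mul_of_pos_left h3 p.c_pos
    rw [p.hcN] at h4
    linarith

/-- The bound on the coordinates of an end with energy at least the threshold. -/
lemma abs_le_amax {G : Finset ι} {z : Fin d → ℝ} (hz : AInv p v G z) {j : Fin d}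
    (hj : p.Lam ≤ mu v G j) : |z j| ≤ p.amax := by
  obtain ⟨ℓ, h1, h2⟩ := hz j hj
  have h3 : (ℓ : ℝ) ≤ p.N := by
    exact_mod_cast ell_le h1 hj
  have h4 := p.s_pos
  unfold Par.amax
  nlinarith

/-- The midpoint: level and bound on the coordinates. -/
lemma mid_level (hax : AInv p v G x) (hay : AInv p v G y)
    (sd : SplitData p v L G x y h h₂ ea eb R R₁ R₂ D m) {j : Fin d} (hj : p.Lam ≤ mu v G j) :
    ∃ ℓ : ℕ, (ℓ = 0 ∨ 27 / 50 * mu v G j ≤ p.c * (11 / 20 : ℝ) ^ ℓ) ∧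
      |m j| ≤ p.β + p.s * (ℓ : ℝ) ∧ ℓ ≤ p.N + 1 := by
  by_cases hrich : p.c ≤ mu v G j
  · exact ⟨0, Or.inl rfl, by simpa using sd.mH j hrich, by omega⟩
  · push Not at hrich
    obtain ⟨a, ha1, ha2⟩ := hax j hj
    obtain ⟨b, hb1, hb2⟩ := hay j hj
    have hs := p.s_pos
    have haN := ell_le ha1 hj
    have hbN := ell_le hb1 hj
    have hmax : max a b ≤ p.N := max_le haN hbN
    have hA : (a : ℝ) ≤ (max a b : ℕ) := by
      exact_mod_cast le_max_left a b
    have hB : (b : ℝ) ≤ (max a b : ℕ) := by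
      exact_mod_cast le_max_right a b
    refine ⟨max a b + 1, Or.inr ?_, ?_, by omega⟩
    · have hc := p.c_pos
      rw [pow_succ]
      have hlev : mu v G j ≤ p.c * (11 / 20 : ℝ) ^ (max a b) := by
        rcases le_total a b with hab | hab
        · rw [max_eq_right hab]
          rcases hb1 with hb0 | hb1
          · have : a = 0 := by omega
            simp only [hb0, pow_zero, mul_one]
            exact hrich.le
          · exact hb1
        · rw [max_eq_left hab]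
          rcases ha1 with ha0 | ha1
          · simp only [ha0, pow_zero, mul_one]
            exact hrich.le
          · exact ha1
      have hμ0 : 0 ≤ mu v G j := le_trans p.Lam_pos.le hj
      have : 27 / 50 * mu v G j ≤ 27 / 50 * (p.c * (11 / 20 : ℝ) ^ (max a b)) :=
        mul_le_mul_of_nonneg_left hlev (by norm_num)
      have h5 : 0 ≤ p.c * (11 / 20 : ℝ) ^ (max a b) := by positivity
      nlinarith
    · have h1 := sd.mB j hj hrich
      have h2 : max |x j| |y j| ≤ p.β + p.s * ((max a b : ℕ) : ℝ) := by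
        refine max_le ?_ ?_
        · have := mul_le_mul_of_nonneg_left hA hs.le
          linarith
        · have := mul_le_mul_of_nonneg_left hB hs.le
          linarith
      push_cast at h2 ⊢
      nlinarith

/-- Coordinate bound at the midpoint. -/
lemma ainv_mid (hv : ∀ i, ∑ j, (v i j) ^ 2 ≤ 1) (hax : AInv p v G x) (hay : AInv p v G y)
    (sd : SplitData p v L G x y h h₂ ea eb R R₁ R₂ D m)
    (ch : ChildOf h h₂ R D e e' RC ς) : AInv p v (insert e RC) m := by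
  intro j hj
  have hs := sub_G sd ch
  have hm := mu_mono (v := v) hs j
  have hj' := hj.trans hm
  obtain ⟨ℓ, h1, h2, h3⟩ := mid_level hax hay sd hj'
  refine ⟨ℓ, ?_, h2⟩
  rcases h1 with h1 | h1
  · exact Or.inl h1
  · exact Or.inr ((energy hv sd ch hj').2.trans h1)

/-- The midpoint is bounded on all coordinates of energy above the threshold. -/
lemma mid_le_amax (hax : AInv p v G x) (hay : AInv p v G y)
    (sd : SplitData p v L G x y h h₂ ea eb R R₁ R₂ D m) {j : Fin d} (hj : p.Lam ≤ mu v G j) :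
    |m j| ≤ p.amax := by
  obtain ⟨ℓ, h1, h2, h3⟩ := mid_level hax hay sd hj
  have h4 : (ℓ : ℝ) ≤ (p.N : ℝ) + 1 := by
    exact_mod_cast h3
  have h5 := p.s_pos
  unfold Par.amax
  nlinarith

end ChildOf

end Vale.Agent.Lib.P262B
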