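import Vale.Agent.Lib.P262B.Params

/-!
# The Euclidean Steinitz constant is `O(√d log² d)`

The coordinates are taken in an eigenbasis of the second moment form of the family, so that
the mixed moments of the whole family vanish.
-/

open Finset
open scoped InnerProductSpace

namespace Vale.Agent.Lib.P262B

set_option linter.unusedSectionVars false
set_option linter.unusedSimpArgs false
set_option linter.unusedVariables false

/-- The bound in terms of the number of rounds. -/
lemma final_bound (d : ℕ) (hd : 1 ≤ d) :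
    (mkPar d).B + d * (mkPar d).amax ^ 2 ≤ 64000000 * (d : ℝ) * (nP d : ℝ) ^ 4 := by
  have h1 := (mkPar d).J_ge
  have h2 := mul_nonneg (mkPar d).A_nonneg (mkPar d).Lam_pos.le
  have h3 := Real.sqrt_nonneg (mkPar d).Lam
  have h4 := (mkPar d).γ_nonneg
  have h5 : (mkPar d).amax ^ 2 ≤ (mkPar d).J := by linarith
  have hB : (mkPar d).B = jJ d * (2 * (d : ℝ) + 1) := rfl
  have hJ : (mkPar d).J = jJ d := rfl
  rw [hB]
  rw [hJ] at h5
  have hd' : (1 : ℝ) ≤ d := by
    exact_mod_cast hd
  have hj : jJ d = 16000000 * (nP d : ℝ) ^ 4 := rfl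
  have hj0 : 0 ≤ jJ d := by
    rw [hj]
    positivity
  have h6 : (d : ℝ) * (mkPar d).amax ^ 2 ≤ d * jJ d :=
    mul_le_mul_of_nonneg_left h5 (by linarith)
  have h7 : jJ d ≤ d * jJ d := by nlinarith
  have h8 : 64000000 * (d : ℝ) * (nP d : ℝ) ^ 4 = 4 * (d * jJ d) := by
    rw [hj]
    ring
  rw [h8]
  nlinarith

/-- From a good list to a permutation. -/
lemma perm_of_list {E : Type*} [AddCommMonoid E] {N : ℕ} (v : Fin N → E) (l : List (Fin N))
    (n : l.Nodup) (e : l.toFinset = Finset.univ) :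
    ∃ π : Equiv.Perm (Fin N), ∀ (k : ℕ) (hk : k ≤ N),
      ∑ i : Fin k, v (π (Fin.castLE hk i)) = ((l.take k).map v).sum := by
  have hmem : ∀ x : Fin N, x ∈ l := by
    intro x
    have : x ∈ l.toFinset := by
      rw [e]
      exact Finset.mem_univ x
    simpa using this
  have hlen : l.length = N := by
    have h1 := List.toFinset_card_of_nodup n
    rw [e, Finset.card_univ, Fintype.card_fin] at h1
    exact h1.symm
  let π : Equiv.Perm (Fin N) :=
    (finCongr hlen.symm).trans (List.Nodup.getEquivOfForallMemList l n hmem)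
  have hπ : ∀ i : Fin N, π i = l[i.val]'(by rw [hlen]; exact i.2) := by
    intro i
    rfl
  refine ⟨π, ?_⟩
  intro k
  induction k with
  | zero =>
    intro _
    simp
  | succ k ih =>
    intro hk
    have hk' : k ≤ N := by omega
    have hkl : k < l.length := by
      rw [hlen]
      omega
    rw [Fin.sum_univ_castSucc, ← List.take_concat_get' l k hkl, List.map_append, List.sum_append,
      ← ih hk']
    congr 1
    simp [hπ]

/-- The main theorem with the number of rounds as the logarithmic factor. -/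
theorem steinitz_log (d N : ℕ) (v : Fin N → EuclideanSpace ℝ (Fin d)) (hv : ∀ i, ‖v i‖ ≤ 1)
    (h0 : ∑ i, v i = 0) :
    ∃ π : Equiv.Perm (Fin N), ∀ (k : ℕ) (hk : k ≤ N),
      ‖∑ i : Fin k, v (π (Fin.castLE hk i))‖ ≤ 8000 * Real.sqrt d * (nP d : ℝ) ^ 2 := by
  classical
  rcases Nat.eq_zero_or_pos N with hN | hN
  · subst hN
    refine ⟨1, fun k hk => ?_⟩
    have hk0 : k = 0 := by omega
    subst hk0
    simp only [Finset.univ_eq_empty, Finset.sum_empty, norm_zero]
    positivity
  rcases Nat.eq_zero_or_pos d with hd | hd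
  · subst hd
    refine ⟨1, fun k hk => ?_⟩
    have : ∀ z : EuclideanSpace ℝ (Fin 0), ‖z‖ = 0 := by
      intro z
      have : z = 0 := Subsingleton.elim _ _
      simp [this]
    rw [this]
    positivity
  have : Nonempty (Fin N) := ⟨⟨0, hN⟩⟩
  let E := EuclideanSpace ℝ (Fin d)
  -- the second moment operator
  let T : E →ₗ[ℝ] E :=
    ∑ i, (innerₛₗ ℝ (v i)).smulRight (v i)
  have hTapp : ∀ u, T u = ∑ i, ⟪v i, u⟫_ℝ • v i := by
    intro u
    simp [T, LinearMap.sum_apply]
  have hT : T.IsSymmetric := by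
    intro a c
    rw [hTapp, hTapp, sum_inner, inner_sum]
    refine Finset.sum_congr rfl fun i _ => ?_
    rw [real_inner_smul_left, real_inner_smul_right, real_inner_comm a (v i)]
    ring
  have hn : Module.finrank ℝ E = d := by
    simp [E]
  let b := hT.eigenvectorBasis hn
  let V : Fin N → Fin d → ℝ := fun i j => ⟪b j, v i⟫_ℝ
  have hW : ∀ W : E, ∑ j, (⟪b j, W⟫_ℝ) ^ 2 = ‖W‖ ^ 2 := by
    intro W
    have := b.sum_sq_norm_inner_right W
    simpa [Real.norm_eq_abs, sq_abs] using this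
  have hV : ∀ i, ∑ j, (V i j) ^ 2 ≤ 1 := by
    intro i
    simp only [V]
    rw [hW]
    have := hv i
    have h1 := norm_nonneg (v i)
    nlinarith
  have hsg : sg V univ = 0 := by
    funext j
    simp only [sg, V, Pi.zero_apply]
    rw [← inner_sum, h0, inner_zero_right]
  have horth : ∀ j l, j ≠ l → Mx V univ j l = 0 := by
    intro j l hjl
    have h1 : Mx V univ j l = ⟪b j, T (b l)⟫_ℝ := by
      rw [hTapp, inner_sum]
      refine Finset.sum_congr rfl fun i _ => ?_
      rw [real_inner_smul_right, real_inner_comm (b l) (v i)]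
      simp only [V]
      ring
    rw [h1]
    have h2 : T (b l) = (hT.eigenvalues hn l : ℝ) • b l := hT.apply_eigenvectorBasis hn l
    rw [h2, real_inner_smul_right]
    have h3 : ⟪b j, b l⟫_ℝ = 0 := by
      have := b.orthonormal.2 hjl
      simpa using this
    rw [h3, mul_zero]
  obtain ⟨l, n, e, g⟩ := coord_main (mkPar d) V hV hsg horth
  obtain ⟨π, hπ⟩ := perm_of_list v l n e
  refine ⟨π, fun k hk => ?_⟩
  rw [hπ k hk]
  set W : E := ((l.take k).map v).sum with hWdef
  have hcoord : ∀ (m : List (Fin N)) (j : Fin d), (m.map V).sum j = ⟪b j, (m.map v).sum⟫_ℝ := by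
    intro m j
    induction m with
    | nil => simp
    | cons a m ih =>
      simp only [List.map_cons, List.sum_cons, Pi.add_apply, inner_add_right, ih, V]
  have h1 := g k
  have h2 : sqs univ ((l.take k).map V).sum = ‖W‖ ^ 2 := by
    unfold sqs
    rw [← hW]
    refine Finset.sum_congr rfl fun j _ => ?_
    rw [hcoord]
  rw [h2] at h1
  have h3 := final_bound d hd
  have h4 : ‖W‖ ^ 2 ≤ (8000 * Real.sqrt d * (nP d : ℝ) ^ 2) ^ 2 := by
    have h5 : (8000 * Real.sqrt d * (nP d : ℝ) ^ 2) ^ 2 = 64000000 * (d : ℝ) * (nP d : ℝ) ^ 4 := by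
      rw [mul_pow, mul_pow, Real.sq_sqrt (Nat.cast_nonneg d)]
      ring
    rw [h5]
    linarith
  exact (pow_le_pow_iff_left₀ (norm_nonneg _) (by positivity) (by norm_num)).1 h4

/-- The Euclidean Steinitz constant is at most `8000 √d (1 + log₂ d)²`. -/
theorem steinitz_logb (d N : ℕ) (v : Fin N → EuclideanSpace ℝ (Fin d)) (hv : ∀ i, ‖v i‖ ≤ 1)
    (h0 : ∑ i, v i = 0) :
    ∃ π : Equiv.Perm (Fin N), ∀ (k : ℕ) (hk : k ≤ N),
      ‖∑ i : Fin k, v (π (Fin.castLE hk i))‖ ≤
        8000 * Real.sqrt d * (Real.logb 2 d + 1) ^ 2 := by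
  obtain ⟨π, hπ⟩ := steinitz_log d N v hv h0
  refine ⟨π, fun k hk => (hπ k hk).trans ?_⟩
  have h1 : ((nP d : ℕ) : ℝ) ≤ Real.logb 2 d + 1 := by
    have h2 : ((Nat.log 2 d : ℕ) : ℝ) ≤ Real.logb ((2 : ℕ) : ℝ) d := Real.natLog_le_logb d 2
    have h3 : ((2 : ℕ) : ℝ) = 2 := by norm_num
    rw [h3] at h2
    unfold nP
    push_cast
    linarith
  have h4 : (0 : ℝ) ≤ nP d := Nat.cast_nonneg _
  have h5 : (nP d : ℝ) ^ 2 ≤ (Real.logb 2 d + 1) ^ 2 := pow_le_pow_left₀ h4 h1 2
  exact mul_le_mul_of_nonneg_left h5 (by positivity)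

end Vale.Agent.Lib.P262B
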