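import Vale.Agent.Lib.P262B.Pot

/-!
# The node of the halving tree: setup and one split
-/

open Finset

namespace Vale.Agent.Lib.P262B

set_option linter.unusedSectionVars false
set_option linter.unusedSimpArgs false
set_option linter.unusedVariables false

variable {ι : Type*} [Fintype ι] [DecidableEq ι] {d : ℕ}

/-- Energy of a group in a coordinate. -/
def mu (v : ι → Fin d → ℝ) (G : Finset ι) (j : Fin d) : ℝ := ∑ i ∈ G, (v i j) ^ 2

/-- Sum vector of a group. -/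
def sg (v : ι → Fin d → ℝ) (G : Finset ι) : Fin d → ℝ := fun j => ∑ i ∈ G, v i j

/-- The coordinates of low energy. -/
noncomputable def Low (v : ι → Fin d → ℝ) (Lam : ℝ) (G : Finset ι) : Finset (Fin d) :=
  univ.filter fun j => mu v G j < Lam

/-- Block mass outside the element `h`. -/
def Ep (v : ι → Fin d → ℝ) (L : Finset (Fin d)) (G : Finset ι) (h : ι) : ℝ :=
  ∑ i ∈ G.erase h, pm v L i

/-- Block length of the sum outside the element `h`. -/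
noncomputable def Sp (v : ι → Fin d → ℝ) (L : Finset (Fin d)) (G : Finset ι) (h : ι) : ℝ :=
  nrm L (sg v (G.erase h))

/-- All parameters of the construction. -/
structure Par (d : ℕ) where
  P : ℕ
  N : ℕ
  Lam : ℝ
  c : ℝ
  ε : ℝ
  A : ℝ
  γ : ℝ
  J : ℝ
  B : ℝ
  Δ : ℝ
  hP1 : 1 ≤ P
  hP : 2 * d + 1 ≤ 21 * 2 ^ P
  hLam1 : 400 * (P : ℝ) ≤ Lam
  hLam2 : 2200 ≤ Lam
  hcN : c * (11 / 20 : ℝ) ^ N = Lam
  hε0 : 0 ≤ ε
  hε1 : ε ≤ 1 / 100
  hsteer : (d : ℝ) * (4 * (8 * (P : ℝ) + 22) ^ 2 / c) ≤ ε ^ 2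
  hτ : (d : ℝ) * (2 * (Δ + 2) / c + 2 * (7 * ε) / Real.sqrt c) ≤ 1 / 2
  hΔ : 2 * ((d : ℝ) ^ 2 + d + 1) + 2 ≤ Δ
  hγ : (1 / 2 + ε + 2 * (P : ℝ) + 5) + 1 / 2 ≤ γ * (7 / 100)
  hA : (1 / 2 + ε + 2 * (P : ℝ) + 5) + 3 / 4 + (2 * (P : ℝ) + 22 + ε ^ 2) ≤ 7 / 50 * A
  hη : 2 * (Real.sqrt B + 1) * ε ≤ 7 / 100
  hJ : (8 * (P : ℝ) + 21 + (2 * (8 * (P : ℝ) + 21) + 2) * ((N : ℝ) + 1)) ^ 2 + A * Lam
    + Real.sqrt Lam + 4 + γ ≤ J
  hB : J * (2 * (d : ℝ) + 1) ≤ B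

namespace Par

variable (p : Par d)

/-- The bound on rich coordinates. -/
def β : ℝ := 8 * (p.P : ℝ) + 21
/-- The growth per level in the band. -/
def s : ℝ := 2 * p.β + 2
/-- The scale of mixed moments. -/
def δ : ℝ := 7 * p.ε
/-- The bound on coordinates in the band. -/
def amax : ℝ := p.β + p.s * ((p.N : ℝ) + 1)

lemma β_pos : 0 < p.β := by
  unfold β
  positivity

lemma s_pos : 0 < p.s := by
  unfold s
  have := p.β_pos
  positivity

lemma δ_nonneg : 0 ≤ p.δ := by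
  unfold δ
  have := p.hε0
  positivity

lemma P_pos : (1 : ℝ) ≤ p.P := by
  exact_mod_cast p.hP1

lemma amax_nonneg : 0 ≤ p.amax := by
  unfold amax
  have := p.β_pos
  have := p.s_pos
  positivity

lemma Lam_le_c : p.Lam ≤ p.c := by
  have h0 : 0 < p.Lam := by
    have := p.hLam2
    linarith
  have h1 : (0 : ℝ) < (11 / 20 : ℝ) ^ p.N := by positivity
  have h2 : (11 / 20 : ℝ) ^ p.N ≤ 1 := pow_le_one₀ (by norm_num) (by norm_num)
  have h3 := p.hcN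
  have hc : 0 < p.c := by
    by_contra hcon
    push Not at hcon
    have : p.c * (11 / 20 : ℝ) ^ p.N ≤ 0 := mul_nonpos_of_nonpos_of_nonneg hcon h1.le
    linarith
  nlinarith

lemma Lam_pos : 0 < p.Lam := by
  have := p.hLam2
  linarith

lemma c_pos : 0 < p.c := lt_of_lt_of_le p.Lam_pos p.Lam_le_c

lemma c_ge : 2200 ≤ p.c := le_trans p.hLam2 p.Lam_le_c

lemma Δ_nonneg : 0 ≤ p.Δ := by
  have := p.hΔ
  have h1 : (0 : ℝ) ≤ (d : ℝ) ^ 2 + d + 1 := by positivity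
  linarith

lemma γ_nonneg : 0 ≤ p.γ := by
  have h1 := p.hγ
  have h2 := p.hε0
  have h3 := p.P_pos
  linarith

lemma A_nonneg : 0 ≤ p.A := by
  have h1 := p.hA
  have h2 := p.hε0
  have h3 := p.P_pos
  nlinarith [sq_nonneg p.ε]

lemma J_ge : p.amax ^ 2 + p.A * p.Lam + Real.sqrt p.Lam + 4 + p.γ ≤ p.J := p.hJ

lemma J_nonneg : 0 ≤ p.J := by
  have h1 := p.J_ge
  have h2 := mul_nonneg p.A_nonneg p.Lam_pos.le
  have h3 := Real.sqrt_nonneg p.Lam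
  have h4 := p.γ_nonneg
  have h5 := sq_nonneg p.amax
  linarith

lemma ε_half : p.ε ≤ 1 / 2 := by
  have := p.hε1
  linarith

end Par

/-- Cauchy for the tilt. -/
lemma abs_sum_mul_le {f w : ι → ℝ} {R : Finset ι} {ε : ℝ} (hε : 0 ≤ ε)
    (hf : ∑ i ∈ R, (f i) ^ 2 ≤ ε ^ 2) :
    |∑ i ∈ R, f i * w i| ≤ ε * Real.sqrt (∑ i ∈ R, (w i) ^ 2) := by
  have h1 : Real.sqrt (∑ i ∈ R, (f i) ^ 2) ≤ ε := by
    refine Real.sqrt_le_iff.2 ⟨hε, hf⟩
  have h2 : ∀ (a : ι → ℝ), ∑ i ∈ R, a i * w i ≤ Real.sqrt (∑ i ∈ R, (a i) ^ 2) *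
      Real.sqrt (∑ i ∈ R, (w i) ^ 2) := fun a => Real.sum_mul_le_sqrt_mul_sqrt R a w
  have h3 : Real.sqrt (∑ i ∈ R, (f i) ^ 2) * Real.sqrt (∑ i ∈ R, (w i) ^ 2)
      ≤ ε * Real.sqrt (∑ i ∈ R, (w i) ^ 2) :=
    mul_le_mul_of_nonneg_right h1 (Real.sqrt_nonneg _)
  rw [abs_le]
  constructor
  · have h4 := h2 (fun i => - f i)
    simp only [neg_mul, Finset.sum_neg_distrib, even_two, Even.neg_pow] at h4
    linarith
  · have h4 := h2 f
    linarith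

/-- Rounding the half point with a small tilt. -/
lemma round_node {v : ι → Fin d → ℝ} (hv : ∀ i, ∑ j, (v i j) ^ 2 ≤ 1) (P : ℕ)
    (hP : 2 * d + 1 ≤ 21 * 2 ^ P) (L : Finset (Fin d)) (R : Finset ι) (f : ι → ℝ) (ε : ℝ)
    (hε0 : 0 ≤ ε) (hε : ε ≤ 1 / 2) (hf : ∑ i ∈ R, (f i) ^ 2 ≤ ε ^ 2) (Gw : Fin d → ℝ)
    (hGw : ∀ j, Gw j = 0 ∨ 8 ≤ Gw j) (pmax : ℝ) (hpmax : 0 ≤ pmax)
    (hp : ∀ i ∈ R, pm v L i ≤ pmax) (ζ : Fin d → ℝ) :
    ∃ (c : ι → ℝ) (R₁ R₂ : Finset ι), R₁ ∪ R₂ = R ∧ Disjoint R₁ R₂ ∧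
      (∀ w : ι → ℝ, ∑ i ∈ R₁, w i = 1 / 2 * ∑ i ∈ R, w i + (∑ i ∈ R, f i * w i + dot w c)) ∧
      (∀ w : ι → ℝ, ∑ i ∈ R₂, w i = 1 / 2 * ∑ i ∈ R, w i - (∑ i ∈ R, f i * w i + dot w c)) ∧
      (∀ j, |dot (rowC v j) c| ≤ 8 * (P : ℝ) + 21) ∧
      (∀ j, 0 < Gw j → |dot (rowE v j) c| ≤ (P : ℝ) * Gw j + 21) ∧
      |dot (pm v L) c| ≤ 2 * pmax ∧
      sqs L (ζ + ev v c) ≤ sqs L ζ + (2 * (P : ℝ) + 22) * ∑ i ∈ R, pm v L i ∧
      nrm L (ev v c) ≤ (2 * (P : ℝ) + 5) * Real.sqrt (∑ i ∈ R, pm v L i) ∧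
      (∀ j l, |dot (rowP v j l) c| ≤ (d : ℝ) ^ 2 + d + 1) := by
  classical
  let t : ι → ℝ := fun i => if i ∈ R then 1 / 2 + f i else 0
  have hfi : ∀ i ∈ R, |f i| ≤ 1 / 2 := by
    intro i hi
    have h1 : (f i) ^ 2 ≤ ∑ i ∈ R, (f i) ^ 2 :=
      Finset.single_le_sum (f := fun i => (f i) ^ 2) (fun _ _ => sq_nonneg _) hi
    have h2 : (f i) ^ 2 ≤ (1 / 2) ^ 2 := by
      have : ε ^ 2 ≤ (1 / 2) ^ 2 := pow_le_pow_left₀ hε0 hε 2
      linarith
    exact abs_le_of_sq_le_sq' h2 (by norm_num) |> abs_le.2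
  have ht : Box t := by
    intro i
    by_cases hi : i ∈ R
    · have := abs_le.1 (hfi i hi)
      simp only [t, hi, if_true]
      constructor <;> linarith [this.1, this.2]
    · simp [t, hi]
  have hfrac : frac t ⊆ R := by
    intro i hi
    by_contra hiR
    have := (mem_frac.1 hi).1
    simp [t, hiR] at this
  obtain ⟨χ, h1, h2, h3, h4, h5, h6, h7, h8⟩ := rounding hv P hP L Gw hGw pmax hpmax t ζ ht
    (fun i hi => hp i (hfrac hi))
  have hE : ∑ i ∈ frac t, pm v L i ≤ ∑ i ∈ R, pm v L i :=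
    Finset.sum_le_sum_of_subset_of_nonneg hfrac (fun i _ _ => pm_nonneg L i)
  have hc0 : ∀ i, i ∉ R → (χ - t) i = 0 := by
    intro i hi
    simp [h2 i (fun h => hi (hfrac h))]
  have hdot : ∀ w : ι → ℝ, dot w (χ - t) = ∑ i ∈ R, w i * (χ - t) i := by
    intro w
    unfold dot
    refine (Finset.sum_subset (Finset.subset_univ R) ?_).symm
    intro i _ hi
    simp [hc0 i hi]
  have hsum1 : ∀ w : ι → ℝ, ∑ i ∈ R.filter (fun i => χ i = 1), w i
      = 1 / 2 * ∑ i ∈ R, w i + (∑ i ∈ R, f i * w i + dot w (χ - t)) := by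
    intro w
    rw [hdot, Finset.sum_filter, Finset.mul_sum, ← Finset.sum_add_distrib,
      ← Finset.sum_add_distrib]
    refine Finset.sum_congr rfl fun i hi => ?_
    simp only [Pi.sub_apply, t, hi, if_true]
    rcases h1 i with h | h <;> simp [h] <;> ring
  refine ⟨χ - t, R.filter (fun i => χ i = 1), R.filter (fun i => ¬ χ i = 1), ?_, ?_, hsum1, ?_,
    h3, h4, h5, ?_, ?_, h8⟩
  · exact Finset.filter_union_filter_not_eq _ _
  · exact Finset.disjoint_filter_filter_not _ _ _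
  · intro w
    have h9 := Finset.sum_filter_add_sum_filter_not R (fun i => χ i = 1) w
    have h10 := hsum1 w
    linarith
  · have : (2 * (P : ℝ) + 22) * ∑ i ∈ frac t, pm v L i ≤ (2 * (P : ℝ) + 22) * ∑ i ∈ R, pm v L i :=
      mul_le_mul_of_nonneg_left hE (by positivity)
    linarith
  · exact le_trans h7 (mul_le_mul_of_nonneg_left (Real.sqrt_le_sqrt hE) (by positivity))

/-- Coordinates are bounded in terms of the level of the energy. -/
def AInv (p : Par d) (v : ι → Fin d → ℝ) (G : Finset ι) (z : Fin d → ℝ) : Prop :=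
  ∀ j, p.Lam ≤ mu v G j → ∃ ℓ : ℕ, (ℓ = 0 ∨ mu v G j ≤ p.c * (11 / 20 : ℝ) ^ ℓ) ∧
    |z j| ≤ p.β + p.s * (ℓ : ℝ)

/-- Mixed moments are small. -/
def OInv (p : Par d) (v : ι → Fin d → ℝ) (G : Finset ι) : Prop :=
  ∀ j l, j ≠ l → p.Lam ≤ mu v G j → p.Lam ≤ mu v G l →
    |Mx v G j l| ≤ p.Δ + p.δ * Real.sqrt (mu v G l)

/-- `h` is a heaviest element of `G` on the block `L`. -/
def Top (v : ι → Fin d → ℝ) (L : Finset (Fin d)) (G : Finset ι) (h : ι) : Prop :=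
  h ∈ G ∧ ∀ i ∈ G, pm v L i ≤ pm v L h

/-- The slack of a node. -/
noncomputable def XiG (p : Par d) (v : ι → Fin d → ℝ) (L : Finset (Fin d)) (G : Finset ι) (h : ι) :
    ℝ :=
  Xi p.A p.γ (Real.sqrt (pm v L h)) (Real.sqrt (Ep v L G h)) (Sp v L G h)

/-- The potential bound at an end of a node. -/
def EndP (p : Par d) (v : ι → Fin d → ℝ) (L : Finset (Fin d)) (G : Finset ι) (h : ι)
    (z : Fin d → ℝ) : Prop :=
  sqs L z + p.J * ((d : ℝ) - (L.card : ℝ)) + XiG p v L G h ≤ p.B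

/-- The node invariant. -/
structure NodeInv (p : Par d) (v : ι → Fin d → ℝ) (G : Finset ι) (x y : Fin d → ℝ) : Prop where
  hy : y = x + sg v G
  orth : OInv p v G
  ax : AInv p v G x
  ay : AInv p v G y
  pot : ∃ h, Top v (Low v p.Lam G) G h ∧ EndP p v (Low v p.Lam G) G h x ∧
    EndP p v (Low v p.Lam G) G h y

lemma sum_decomp {G R : Finset ι} {h h₂ : ι} (hG : G = insert h (insert h₂ R))
    (hh : h ∉ insert h₂ R) (hh₂ : h₂ ∉ R) (w : ι → ℝ) :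
    ∑ i ∈ G, w i = w h + (w h₂ + ∑ i ∈ R, w i) := by
  subst hG
  rw [Finset.sum_insert hh, Finset.sum_insert hh₂]

lemma ratio_le {X M μ c Y D : ℝ} (hc : 0 < c) (hμ : c ≤ μ) (hM : μ / 2 ≤ M) (hY : 0 ≤ Y)
    (hD : 0 ≤ D) (hX : X ≤ Y + D * Real.sqrt μ) : X / M ≤ 2 * Y / c + 2 * D / Real.sqrt c := by
  have hμ0 : 0 < μ := lt_of_lt_of_le hc hμ
  have hM0 : 0 < M := by linarith
  have hsc : 0 < Real.sqrt c := Real.sqrt_pos.2 hc
  have hsμ : 0 < Real.sqrt μ := Real.sqrt_pos.2 hμ0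
  have hle : Real.sqrt c ≤ Real.sqrt μ := Real.sqrt_le_sqrt hμ
  rw [div_le_iff₀ hM0]
  have h1 : 0 ≤ 2 * Y / c + 2 * D / Real.sqrt c := by positivity
  have h2 : (2 * Y / c + 2 * D / Real.sqrt c) * (μ / 2) ≤ (2 * Y / c + 2 * D / Real.sqrt c) * M :=
    mul_le_mul_of_nonneg_left hM h1
  have h3 : 1 ≤ μ / c := (one_le_div hc).2 hμ
  have h4 : Real.sqrt μ ≤ μ / Real.sqrt c := by
    rw [le_div_iff₀ hsc]
    have : Real.sqrt μ * Real.sqrt μ = μ := Real.mul_self_sqrt hμ0.le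
    nlinarith
  have h5 : (2 * Y / c + 2 * D / Real.sqrt c) * (μ / 2) = Y * (μ / c) + D * (μ / Real.sqrt c) := by
    field_simp
  have h6 : Y ≤ Y * (μ / c) := by nlinarith
  have h7 : D * Real.sqrt μ ≤ D * (μ / Real.sqrt c) := mul_le_mul_of_nonneg_left h4 hD
  linarith

lemma aux_drift (b Y D r : ℝ) (hr : 0 < r) :
    4 * b / r ^ 2 * (Y + D * r) = 2 * b * (2 * Y / r ^ 2 + 2 * D / r) := by
  field_simp
  ring

/-- The tilt at a node. -/
lemma steer_node {v : ι → Fin d → ℝ} (hv : ∀ i, ∑ j, (v i j) ^ 2 ≤ 1) (p : Par d) {G R : Finset ι}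
    {h h₂ : ι} (hG : G = insert h (insert h₂ R)) (hh : h ∉ insert h₂ R) (hh₂ : h₂ ∉ R)
    (horth : OInv p v G) (g : Fin d → ℝ) (hg : ∀ k, p.c ≤ mu v G k → |g k| ≤ p.β + 1) :
    ∃ f : ι → ℝ, (∀ k, p.c ≤ mu v G k → ∑ i ∈ R, f i * v i k = g k) ∧
      (∑ i ∈ R, (f i) ^ 2 ≤ p.ε ^ 2) ∧
      (∀ j, p.Lam ≤ mu v G j → mu v G j < p.c → |∑ i ∈ R, f i * v i j| ≤ p.β + 1) := by
  classical
  set H : Finset (Fin d) := univ.filter fun k => p.c ≤ mu v G k with hH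
  have hHmem : ∀ k, k ∈ H ↔ p.c ≤ mu v G k := fun k => by simp [hH]
  set b : ℝ := p.β + 1 with hb
  have hb0 : 0 ≤ b := by
    have := p.β_pos
    linarith
  have hc0 := p.c_pos
  have hMx : ∀ j l, Mx v G j l = v h j * v h l + (v h₂ j * v h₂ l + Mx v R j l) := fun j l =>
    sum_decomp hG hh hh₂ (fun i => v i j * v i l)
  have hone : ∀ i j l, |v i j * v i l| ≤ 1 := by
    intro i j l
    rw [abs_mul]
    have h1 := coord_abs_le hv i j
    have h2 := coord_abs_le hv i l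
    nlinarith [abs_nonneg (v i j), abs_nonneg (v i l)]
  have hdiff : ∀ j l, |Mx v R j l| ≤ |Mx v G j l| + 2 := by
    intro j l
    have h1 := hMx j l
    have h2 : Mx v R j l = Mx v G j l - v h j * v h l - v h₂ j * v h₂ l := by linarith
    rw [h2]
    have h3 := abs_le.1 (hone h j l)
    have h4 := abs_le.1 (hone h₂ j l)
    have h5 := le_abs_self (Mx v G j l)
    have h6 := neg_abs_le (Mx v G j l)
    rw [abs_le]
    constructor <;> linarith [h3.1, h3.2, h4.1, h4.2]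
  have hmuMx : ∀ k, Mx v G k k = mu v G k := by
    intro k
    simp [Mx, mu, sq]
  have hdiag : ∀ k, mu v G k - 2 ≤ Mx v R k k := by
    intro k
    have h1 := hMx k k
    rw [hmuMx] at h1
    have h2 := abs_le.1 (hone h k k)
    have h3 := abs_le.1 (hone h₂ k k)
    linarith [h2.2, h3.2]
  have hcge := p.c_ge
  have hLc := p.Lam_le_c
  have hD' : ∀ k ∈ H, mu v G k / 2 ≤ Mx v R k k := by
    intro k hk
    have h1 := (hHmem k).1 hk
    have h2 := hdiag k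
    linarith
  have hD : ∀ k ∈ H, p.c / 2 ≤ Mx v R k k := by
    intro k hk
    have h1 := (hHmem k).1 hk
    have h2 := hD' k hk
    linarith
  have hYnn : 0 ≤ p.Δ + 2 := by
    have := p.Δ_nonneg
    linarith
  have hδ := p.δ_nonneg
  have hrow : ∀ k ∈ H, ∀ l ∈ H, k ≠ l →
      |Mx v R k l| / Mx v R l l ≤ 2 * (p.Δ + 2) / p.c + 2 * p.δ / Real.sqrt p.c := by
    intro k hk l hl hkl
    have hk' := (hHmem k).1 hk
    have hl' := (hHmem l).1 hl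
    refine ratio_le hc0 hl' (hD' l hl) hYnn hδ ?_
    have h1 := horth k l hkl (hLc.trans hk') (hLc.trans hl')
    have h2 := hdiff k l
    linarith
  have hτ0 : 0 ≤ 2 * (p.Δ + 2) / p.c + 2 * p.δ / Real.sqrt p.c := by positivity
  have hτ : (d : ℝ) * (2 * (p.Δ + 2) / p.c + 2 * p.δ / Real.sqrt p.c) ≤ 1 / 2 := p.hτ
  obtain ⟨f, w, hw, hf1, hf2, hf3⟩ := steer v R H g b p.c _ hb0 hc0 hτ0 hD hrow hτ
    (fun k hk => hg k ((hHmem k).1 hk))
  refine ⟨f, fun k hk => hf2 k ((hHmem k).2 hk), ?_, ?_⟩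
  · refine le_trans hf3 ?_
    have : b = 8 * (p.P : ℝ) + 22 := by
      rw [hb]
      unfold Par.β
      ring
    rw [this]
    exact p.hsteer
  · intro j hj1 hj2
    rw [hf1 j]
    have hsc : 0 < Real.sqrt p.c := Real.sqrt_pos.2 hc0
    have hsj : Real.sqrt (mu v G j) ≤ Real.sqrt p.c := Real.sqrt_le_sqrt hj2.le
    set T : ℝ := 4 * b / p.c * (p.Δ + 2 + p.δ * Real.sqrt p.c) with hT
    have hTnn : 0 ≤ T := by positivity
    have hterm : ∀ k ∈ H, |w k * Mx v R j k| ≤ T := by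
      intro k hk
      have hk' := (hHmem k).1 hk
      have hjk : k ≠ j := by
        intro h0
        subst h0
        linarith
      have h1 := horth k j hjk (hLc.trans hk') hj1
      have h2 := hdiff j k
      have h3 : Mx v G j k = Mx v G k j := by
        simp [Mx, mul_comm]
      rw [h3] at h2
      rw [abs_mul]
      refine mul_le_mul (hw k hk) ?_ (abs_nonneg _) (by positivity)
      have h4 : p.δ * Real.sqrt (mu v G j) ≤ p.δ * Real.sqrt p.c :=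
        mul_le_mul_of_nonneg_left hsj hδ
      linarith
    have hHcard : (H.card : ℝ) ≤ d := by
      have : H.card ≤ d := by
        simpa using Finset.card_le_univ H
      exact_mod_cast this
    have hdT : (d : ℝ) * T ≤ b := by
      have h1 : T = 2 * b * (2 * (p.Δ + 2) / p.c + 2 * p.δ / Real.sqrt p.c) := by
        have h2 := aux_drift b (p.Δ + 2) p.δ (Real.sqrt p.c) hsc
        rw [Real.sq_sqrt hc0.le] at h2
        exact h2
      rw [h1]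
      calc (d : ℝ) * (2 * b * (2 * (p.Δ + 2) / p.c + 2 * p.δ / Real.sqrt p.c))
          = 2 * b * ((d : ℝ) * (2 * (p.Δ + 2) / p.c + 2 * p.δ / Real.sqrt p.c)) := by ring
        _ ≤ 2 * b * (1 / 2) := mul_le_mul_of_nonneg_left hτ (by positivity)
        _ = b := by ring
    calc |∑ k ∈ H, w k * Mx v R j k| ≤ ∑ k ∈ H, |w k * Mx v R j k| := abs_sum_le_sum_abs _ _
      _ ≤ ∑ k ∈ H, T := Finset.sum_le_sum hterm
      _ = (H.card : ℝ) * T := by simp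
      _ ≤ (d : ℝ) * T := mul_le_mul_of_nonneg_right hHcard hTnn
      _ ≤ b := hdT

lemma nrm_scale (L : Finset (Fin d)) (c : ℝ) (a : Fin d → ℝ) :
    nrm L (fun j => c * a j) = |c| * nrm L a := by
  unfold nrm sqs
  have h1 : ∑ j ∈ L, (c * a j) ^ 2 = c ^ 2 * ∑ j ∈ L, (a j) ^ 2 := by
    rw [Finset.mul_sum]
    exact Finset.sum_congr rfl fun j _ => by ring
  rw [h1, Real.sqrt_mul (sq_nonneg c), Real.sqrt_sq_eq_abs]

/-- Expansion of the squared length of the tilted midpoint. -/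
lemma mid_sqs (L : Finset (Fin d)) (x y vh vh₂ vea veb sE δ : Fin d → ℝ) (Bb ε a₂ : ℝ)
    (hBb : 0 ≤ Bb) (hε : 0 ≤ ε) (ha₂ : 0 ≤ a₂)
    (hyx : ∀ j, y j - x j = vh j + sE j)
    (he : (vea = vh ∧ veb = vh₂) ∨ (vea = vh₂ ∧ veb = vh))
    (hsign : ipr L (fun j => (x j + y j) / 2) (fun j => vea j - veb j) ≤ 0)
    (hx : sqs L x ≤ Bb) (hy : sqs L y ≤ Bb) (hr1 : nrm L vh ≤ 1) (hq1 : nrm L vh₂ ≤ 1)
    (hδ : nrm L δ ≤ ε * a₂) :
    sqs L ((fun j => (x j + y j) / 2) + (fun j => (vea j - veb j) / 2) + δ)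
      ≤ 1 / 2 * (sqs L x + sqs L y) + (1 / 2 * nrm L vh * nrm L vh₂ + 1 / 4 * (nrm L vh₂) ^ 2
        + 1 / 2 * nrm L vh * nrm L sE - 1 / 4 * (nrm L sE) ^ 2
        + 2 * (Real.sqrt Bb + 1) * ε * a₂ + ε ^ 2 * a₂ ^ 2) := by
  set avg : Fin d → ℝ := fun j => (x j + y j) / 2 with havg
  set u : Fin d → ℝ := fun j => (vea j - veb j) / 2 with hu
  set r := nrm L vh with hr
  set q := nrm L vh₂ with hq
  set S := nrm L sE with hS
  have hr0 : 0 ≤ r := nrm_nonneg _ _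
  have hq0 : 0 ≤ q := nrm_nonneg _ _
  have hS0 : 0 ≤ S := nrm_nonneg _ _
  set w : Fin d → ℝ := fun j => y j - x j with hw
  have hA : sqs L avg = 1 / 2 * (sqs L x + sqs L y) - 1 / 4 * sqs L w := by
    simp only [sqs, havg, hw, Finset.mul_sum, ← Finset.sum_add_distrib, ← Finset.sum_sub_distrib]
    exact Finset.sum_congr rfl fun j _ => by ring
  have hw0 := sqs_nonneg L w
  have hB : nrm L avg ≤ Real.sqrt Bb := Real.sqrt_le_sqrt (by linarith)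
  have hnU : nrm L u ≤ 1 / 2 * (r + q) := by
    have h1 : u = (fun j => (1 / 2 : ℝ) * vea j) + (fun j => (-(1 / 2) : ℝ) * veb j) := by
      funext j
      simp only [hu, Pi.add_apply]
      ring
    have h2 := nrm_add_le L (fun j => (1 / 2 : ℝ) * vea j) (fun j => (-(1 / 2) : ℝ) * veb j)
    rw [← h1, nrm_scale, nrm_scale] at h2
    have h3 : |(1 / 2 : ℝ)| = 1 / 2 := by norm_num
    have h4 : |(-(1 / 2) : ℝ)| = 1 / 2 := by norm_num
    rw [h3, h4] at h2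
    rcases he with ⟨h5, h6⟩ | ⟨h5, h6⟩
    · rw [h5, h6] at h2
      linarith
    · rw [h5, h6] at h2
      linarith
  have hnU0 := nrm_nonneg L u
  have hsU : sqs L u ≤ 1 / 4 * (r + q) ^ 2 := by
    rw [← nrm_sq]
    have := pow_le_pow_left₀ hnU0 hnU 2
    nlinarith
  have hwS : (S - r) ^ 2 ≤ sqs L w := by
    rw [← nrm_sq]
    have h1 : sE = w + (fun j => (-1 : ℝ) * vh j) := by
      funext j
      have := hyx j
      simp only [hw, Pi.add_apply]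
      linarith
    have h2 : vh = w + (fun j => (-1 : ℝ) * sE j) := by
      funext j
      have := hyx j
      simp only [hw, Pi.add_apply]
      linarith
    have h3 := nrm_add_le L w (fun j => (-1 : ℝ) * vh j)
    have h4 := nrm_add_le L w (fun j => (-1 : ℝ) * sE j)
    rw [← h1, nrm_scale] at h3
    rw [← h2, nrm_scale] at h4
    simp only [abs_neg, abs_one, one_mul] at h3 h4
    have h5 : |S - r| ≤ nrm L w := by
      rw [abs_le]
      constructor <;> linarith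
    calc (S - r) ^ 2 = |S - r| ^ 2 := (sq_abs _).symm
      _ ≤ _ := pow_le_pow_left₀ (abs_nonneg _) h5 2
  have hipr : ipr L avg u = 1 / 2 * ipr L avg (fun j => vea j - veb j) := by
    simp only [ipr, hu, Finset.mul_sum]
    exact Finset.sum_congr rfl fun j _ => by ring
  have h1 : sqs L (avg + u) ≤ sqs L avg + sqs L u := by
    rw [sqs_add, hipr]
    linarith
  have hnAU : nrm L (avg + u) ≤ Real.sqrt Bb + 1 := by
    have h2 := nrm_add_le L avg u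
    linarith
  have hnAU0 := nrm_nonneg L (avg + u)
  have hnδ0 := nrm_nonneg L δ
  have h2 : ipr L (avg + u) δ ≤ (Real.sqrt Bb + 1) * (ε * a₂) := by
    have h3 := ipr_le L (avg + u) δ
    have h4 : nrm L (avg + u) * nrm L δ ≤ (Real.sqrt Bb + 1) * (ε * a₂) :=
      mul_le_mul hnAU hδ hnδ0 (by positivity)
    linarith
  have h3 : sqs L δ ≤ ε ^ 2 * a₂ ^ 2 := by
    rw [← nrm_sq, ← mul_pow]
    exact pow_le_pow_left₀ hnδ0 hδ 2
  rw [sqs_add]
  nlinarith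

/-- The data of one split. -/
structure SplitData (p : Par d) (v : ι → Fin d → ℝ) (L : Finset (Fin d)) (G : Finset ι)
    (x y : Fin d → ℝ) (h h₂ ea eb : ι) (R R₁ R₂ : Finset ι) (D : (ι → ℝ) → ℝ)
    (m : Fin d → ℝ) : Prop where
  hG : G = insert h (insert h₂ R)
  hh : h ∉ insert h₂ R
  hh₂ : h₂ ∉ R
  hR2 : ∀ i ∈ R, pm v L i ≤ pm v L h₂
  hh₂h : pm v L h₂ ≤ pm v L h
  he : (ea = h ∧ eb = h₂) ∨ (ea = h₂ ∧ eb = h)
  hU : R₁ ∪ R₂ = R
  hdisj : Disjoint R₁ R₂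
  hs1 : ∀ w : ι → ℝ, ∑ i ∈ R₁, w i = 1 / 2 * ∑ i ∈ R, w i + D w
  hs2 : ∀ w : ι → ℝ, ∑ i ∈ R₂, w i = 1 / 2 * ∑ i ∈ R, w i - D w
  hm : ∀ j, m j = x j + v ea j + ∑ i ∈ R₁, v i j
  hy2 : ∀ j, y j = m j + v eb j + ∑ i ∈ R₂, v i j
  bE : ∀ j, p.Lam ≤ mu v G j → |D (rowE v j)| ≤ p.ε * Real.sqrt (mu v G j) + mu v G j / 50 + 21
  bO : ∀ j l, |D (rowP v j l)| ≤ p.ε * Real.sqrt (mu v G l) + ((d : ℝ) ^ 2 + d + 1)
  bPm : |D (pm v L)| ≤ p.ε * Real.sqrt (pm v L h₂ * ∑ i ∈ R, pm v L i) + 2 * pm v L h₂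
  bN : nrm L (fun j => D (rowC v j)) ≤ (p.ε + 2 * (p.P : ℝ) + 5) * Real.sqrt (∑ i ∈ R, pm v L i)
  mH : ∀ j, p.c ≤ mu v G j → |m j| ≤ p.β
  mB : ∀ j, p.Lam ≤ mu v G j → mu v G j < p.c → |m j| ≤ max |x j| |y j| + p.s
  mP : sqs L m ≤ 1 / 2 * (sqs L x + sqs L y) +
    (1 / 2 * Real.sqrt (pm v L h) * Real.sqrt (pm v L h₂) + 1 / 4 * (Real.sqrt (pm v L h₂)) ^ 2
      + 1 / 2 * Real.sqrt (pm v L h) * Sp v L G h - 1 / 4 * (Sp v L G h) ^ 2
      + 2 * (Real.sqrt p.B + 1) * p.ε * Real.sqrt (∑ i ∈ R, pm v L i)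
      + (2 * (p.P : ℝ) + 22 + p.ε ^ 2) * (Real.sqrt (∑ i ∈ R, pm v L i)) ^ 2)

lemma ainv_rich {p : Par d} {v : ι → Fin d → ℝ} {G : Finset ι} {z : Fin d → ℝ}
    (hz : AInv p v G z) {j : Fin d} (hj : p.c ≤ mu v G j) : |z j| ≤ p.β := by
  obtain ⟨ℓ, h1, h2⟩ := hz j (p.Lam_le_c.trans hj)
  cases ℓ with
  | zero =>
    simpa using h2
  | succ n =>
    rcases h1 with h1 | h1
    · exact absurd h1 (Nat.succ_ne_zero n)
    · have h3 : (11 / 20 : ℝ) ^ (n + 1) < 1 := pow_lt_one₀ (by norm_num) (by norm_num) (by omega)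
      have h4 : p.c * (11 / 20 : ℝ) ^ (n + 1) < p.c * 1 := mul_lt_mul_of_pos_left h3 p.c_pos
      linarith

lemma sqrt_pm_le {v : ι → Fin d → ℝ} (hv : ∀ i, ∑ j, (v i j) ^ 2 ≤ 1) (L : Finset (Fin d)) (i : ι) :
    Real.sqrt (pm v L i) ≤ 1 := by
  have := pm_le hv L i
  exact Real.sqrt_le_one.2 this

lemma sqs_le_of_EndP {p : Par d} {v : ι → Fin d → ℝ} {L : Finset (Fin d)} {G : Finset ι} {h : ι}
    {z : Fin d → ℝ} (hz : EndP p v L G h z) : sqs L z ≤ p.B := by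
  unfold EndP at hz
  have h1 : 0 ≤ XiG p v L G h :=
    Xi_nonneg p.A_nonneg p.γ_nonneg (Real.sqrt_nonneg _) (Real.sqrt_nonneg _) (nrm_nonneg _ _)
  have h2 : (L.card : ℝ) ≤ d := by
    have : L.card ≤ d := by
      simpa using Finset.card_le_univ L
    exact_mod_cast this
  have h3 : 0 ≤ p.J * ((d : ℝ) - (L.card : ℝ)) :=
    mul_nonneg p.J_nonneg (by linarith)
  linarith

end Vale.Agent.Lib.P262B
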