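import Vale.Agent.Lib.P262B.Tree

/-!
# The choice of parameters
-/

open Finset

namespace Vale.Agent.Lib.P262B

set_option linter.unusedSectionVars false
set_option linter.unusedSimpArgs false
set_option linter.unusedVariables false

/-- The number of rounds. -/
def nP (d : ℕ) : ℕ := Nat.log 2 d + 1

lemma d_lt (d : ℕ) : d < 2 ^ nP d := Nat.lt_pow_succ_log_self (by norm_num) d

/-- The constant in the potential. -/
noncomputable def jJ (d : ℕ) : ℝ := 16000000 * (nP d : ℝ) ^ 4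

/-- The bound on the potential. -/
noncomputable def bB (d : ℕ) : ℝ := jJ d * (2 * (d : ℝ) + 1)

/-- The tolerance. -/
noncomputable def eE (d : ℕ) : ℝ := 1 / (200 * (Real.sqrt (bB d) + 1))

/-- The top of the band. -/
noncomputable def cC (d : ℕ) : ℝ := 2200 * (nP d : ℝ) * (20 / 11 : ℝ) ^ (64 * nP d)

lemma nP_ge (d : ℕ) : (1 : ℝ) ≤ nP d := by
  have : 1 ≤ nP d := by
    unfold nP
    omega
  exact_mod_cast this

lemma bB_nonneg (d : ℕ) : 0 ≤ bB d := by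
  unfold bB jJ
  positivity

lemma eE_nonneg (d : ℕ) : 0 ≤ eE d := by
  unfold eE
  have := bB_nonneg d
  positivity

lemma eE_le (d : ℕ) : eE d ≤ 1 / 200 := by
  unfold eE
  have h1 := Real.sqrt_nonneg (bB d)
  refine one_div_le_one_div_of_le (by norm_num) ?_
  nlinarith

lemma mul_eE (d : ℕ) : (Real.sqrt (bB d) + 1) * eE d = 1 / 200 := by
  unfold eE
  have h1 := Real.sqrt_nonneg (bB d)
  have h2 : Real.sqrt (bB d) + 1 ≠ 0 := by positivity
  field_simp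

lemma c_lower (d : ℕ) : 2200 * ((2 : ℝ) ^ nP d) ^ 55 ≤ cC d := by
  unfold cC
  have h1 : (2 : ℝ) ^ 55 ≤ (20 / 11 : ℝ) ^ 64 := by norm_num
  have h2 : ((2 : ℝ) ^ nP d) ^ 55 ≤ (20 / 11 : ℝ) ^ (64 * nP d) := by
    calc ((2 : ℝ) ^ nP d) ^ 55 = ((2 : ℝ) ^ 55) ^ nP d := by
          rw [← pow_mul, ← pow_mul, mul_comm]
      _ ≤ ((20 / 11 : ℝ) ^ 64) ^ nP d := pow_le_pow_left₀ (by norm_num) h1 _
      _ = (20 / 11 : ℝ) ^ (64 * nP d) := by rw [← pow_mul]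
  have h3 := nP_ge d
  have h4 : (0 : ℝ) ≤ (20 / 11 : ℝ) ^ (64 * nP d) := by positivity
  nlinarith

/-- Polynomial bound by the top of the band. -/
lemma poly_le_c (d : ℕ) {K : ℝ} {n : ℕ} (hK : K ≤ 2 ^ 47 * 2200) (hn : n ≤ 8) (hK0 : 0 ≤ K) :
    K * ((2 : ℝ) ^ nP d) ^ n ≤ cC d := by
  set X : ℝ := (2 : ℝ) ^ nP d with hX
  have hX2 : 2 ≤ X := by
    have h1 : 1 ≤ nP d := by
      unfold nP
      omega
    calc (2 : ℝ) = 2 ^ 1 := by norm_num
      _ ≤ 2 ^ nP d := pow_le_pow_right₀ (by norm_num) h1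
  have hX1 : 1 ≤ X := by linarith
  have h1 := c_lower d
  rw [← hX] at h1
  have h2 : X ^ n ≤ X ^ 8 := pow_le_pow_right₀ hX1 hn
  have h3 : (2 : ℝ) ^ 47 ≤ X ^ 47 := pow_le_pow_left₀ (by norm_num) hX2 47
  have h4 : X ^ 55 = X ^ 47 * X ^ 8 := by ring
  have h5 : (0 : ℝ) ≤ X ^ n := by positivity
  have h6 : (0 : ℝ) ≤ X ^ 8 := by positivity
  calc K * X ^ n ≤ (2 ^ 47 * 2200) * X ^ 8 := mul_le_mul hK h2 h5 (by norm_num)
    _ = 2200 * ((2 : ℝ) ^ 47 * X ^ 8) := by ring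
    _ ≤ 2200 * (X ^ 47 * X ^ 8) := by
        gcongr
    _ = 2200 * X ^ 55 := by rw [h4]
    _ ≤ cC d := h1

lemma X_facts (d : ℕ) : (d : ℝ) ≤ (2 : ℝ) ^ nP d ∧ (nP d : ℝ) ≤ (2 : ℝ) ^ nP d ∧
    (1 : ℝ) ≤ (2 : ℝ) ^ nP d := by
  refine ⟨?_, ?_, ?_⟩
  · have := (d_lt d).le
    exact_mod_cast this
  · have : nP d < 2 ^ nP d := Nat.lt_two_pow_self
    exact_mod_cast this.le
  · exact one_le_pow₀ (by norm_num)

lemma c_pos' (d : ℕ) : 0 < cC d := by
  unfold cC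
  have := nP_ge d
  positivity

/-- The steering condition. -/
lemma steer_cond (d : ℕ) :
    (d : ℝ) * (4 * (8 * (nP d : ℝ) + 22) ^ 2 / cC d) ≤ (eE d) ^ 2 := by
  obtain ⟨h1, h2, h3⟩ := X_facts d
  set X : ℝ := (2 : ℝ) ^ nP d with hX
  have hP1 := nP_ge d
  have hc := c_pos' d
  have hB0 := bB_nonneg d
  set w : ℝ := Real.sqrt (bB d) + 1 with hw
  have hw1 : 1 ≤ w := by
    have := Real.sqrt_nonneg (bB d)
    linarith
  have hw2 : w ^ 2 ≤ 2 * bB d + 2 := by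
    have h4 := Real.sq_sqrt hB0
    have h5 := sq_nonneg (Real.sqrt (bB d) - 1)
    rw [hw]
    nlinarith
  have hε : eE d = 1 / (200 * w) := rfl
  rw [hε]
  have hd0 : (0 : ℝ) ≤ d := Nat.cast_nonneg d
  -- polynomial estimate
  have h8P : 8 * (nP d : ℝ) + 22 ≤ 30 * X := by linarith
  have hP4 : (nP d : ℝ) ^ 4 ≤ X ^ 4 := pow_le_pow_left₀ (by linarith) h2 4
  have hBX : bB d ≤ 48000000 * X ^ 5 := by
    unfold bB jJ
    have h4 : 2 * (d : ℝ) + 1 ≤ 3 * X := by linarith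
    calc 16000000 * (nP d : ℝ) ^ 4 * (2 * (d : ℝ) + 1)
        ≤ 16000000 * X ^ 4 * (3 * X) := by
          gcongr
      _ = 48000000 * X ^ 5 := by ring
  have hX5 : 1 ≤ X ^ 5 := one_le_pow₀ h3
  have h2B : 2 * bB d + 2 ≤ 100000000 * X ^ 5 := by linarith
  have hsq : (8 * (nP d : ℝ) + 22) ^ 2 ≤ (30 * X) ^ 2 :=
    pow_le_pow_left₀ (by positivity) h8P 2
  have hmain : (d : ℝ) * (4 * (8 * (nP d : ℝ) + 22) ^ 2) * (40000 * w ^ 2) ≤ cC d := by
    have h5 : (d : ℝ) * (4 * (8 * (nP d : ℝ) + 22) ^ 2) * (40000 * w ^ 2)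
        ≤ X * (4 * (30 * X) ^ 2) * (40000 * (100000000 * X ^ 5)) := by
      gcongr
      linarith
    have h6 : X * (4 * (30 * X) ^ 2) * (40000 * (100000000 * X ^ 5))
        = 14400000000000000 * X ^ 8 := by ring
    have h7 := poly_le_c d (K := 14400000000000000) (n := 8) (by norm_num) le_rfl (by norm_num)
    rw [← hX] at h7
    linarith
  have hw0 : 0 < w := by linarith
  rw [div_pow, one_pow, mul_pow]
  have h8 : (d : ℝ) * (4 * (8 * (nP d : ℝ) + 22) ^ 2 / cC d)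
      = ((d : ℝ) * (4 * (8 * (nP d : ℝ) + 22) ^ 2)) / cC d := by ring
  rw [h8, div_le_div_iff₀ hc (by positivity)]
  norm_num
  nlinarith

/-- The dominance condition. -/
lemma dom_cond (d : ℕ) :
    (d : ℝ) * (2 * (2 * ((d : ℝ) ^ 2 + d + 1) + 2 + 2) / cC d + 2 * (7 * eE d) / Real.sqrt (cC d))
      ≤ 1 / 2 := by
  obtain ⟨h1, h2, h3⟩ := X_facts d
  set X : ℝ := (2 : ℝ) ^ nP d with hX
  have hc := c_pos' d
  have hd0 : (0 : ℝ) ≤ d := Nat.cast_nonneg d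
  have hsc : 0 < Real.sqrt (cC d) := Real.sqrt_pos.2 hc
  have hε0 := eE_nonneg d
  have hε1 := eE_le d
  have hA : (d : ℝ) * (2 * (2 * ((d : ℝ) ^ 2 + d + 1) + 2 + 2) / cC d) ≤ 1 / 4 := by
    have h4 : (d : ℝ) * (2 * (2 * ((d : ℝ) ^ 2 + d + 1) + 2 + 2) / cC d)
        = ((d : ℝ) * (2 * (2 * ((d : ℝ) ^ 2 + d + 1) + 2 + 2))) / cC d := by ring
    rw [h4, div_le_iff₀ hc]
    have h5 : (d : ℝ) * (2 * (2 * ((d : ℝ) ^ 2 + d + 1) + 2 + 2))
        ≤ X * (2 * (2 * (X ^ 2 + X + 1) + 2 + 2)) := by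
      gcongr
    have h6 : X * (2 * (2 * (X ^ 2 + X + 1) + 2 + 2)) ≤ 20 * X ^ 3 := by
      have h7 : X ≤ X ^ 2 := by nlinarith
      have h8 : 1 ≤ X ^ 2 := by nlinarith
      have h9 : X * (2 * (2 * (X ^ 2 + X + 1) + 2 + 2)) = X * (4 * X ^ 2 + 4 * X + 12) := by ring
      rw [h9]
      have h10 : X * (4 * X ^ 2 + 4 * X + 12) ≤ X * (20 * X ^ 2) :=
        mul_le_mul_of_nonneg_left (by linarith) (by linarith)
      nlinarith
    have h7 := poly_le_c d (K := 80) (n := 3) (by norm_num) (by norm_num) (by norm_num)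
    rw [← hX] at h7
    have h8 : (0 : ℝ) ≤ X ^ 3 := by positivity
    linarith
  have hB : (d : ℝ) * (2 * (7 * eE d) / Real.sqrt (cC d)) ≤ 1 / 4 := by
    have h4 : (d : ℝ) ≤ Real.sqrt (cC d) := by
      refine Real.le_sqrt_of_sq_le ?_
      have h5 := poly_le_c d (K := 1) (n := 2) (by norm_num) (by norm_num) (by norm_num)
      rw [← hX, one_mul] at h5
      have h6 : (d : ℝ) ^ 2 ≤ X ^ 2 := pow_le_pow_left₀ hd0 h1 2
      linarith
    have h5 : (d : ℝ) * (2 * (7 * eE d) / Real.sqrt (cC d))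
        = (d : ℝ) / Real.sqrt (cC d) * (14 * eE d) := by ring
    rw [h5]
    have h6 : (d : ℝ) / Real.sqrt (cC d) ≤ 1 := (div_le_one hsc).2 h4
    have h7 : (d : ℝ) / Real.sqrt (cC d) * (14 * eE d) ≤ 1 * (14 * eE d) :=
      mul_le_mul_of_nonneg_right h6 (by positivity)
    linarith
  calc _ = (d : ℝ) * (2 * (2 * ((d : ℝ) ^ 2 + d + 1) + 2 + 2) / cC d)
        + (d : ℝ) * (2 * (7 * eE d) / Real.sqrt (cC d)) := by ring
    _ ≤ 1 / 2 := by linarith

/-- The parameters used in the final theorem. -/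
noncomputable def mkPar (d : ℕ) : Par d where
  P := nP d
  N := 64 * nP d
  Lam := 2200 * (nP d : ℝ)
  c := cC d
  ε := eE d
  A := 231 * (nP d : ℝ)
  γ := 115 * (nP d : ℝ)
  J := jJ d
  B := bB d
  Δ := 2 * ((d : ℝ) ^ 2 + d + 1) + 2
  hP1 := by
    unfold nP
    omega
  hP := by
    have := d_lt d
    omega
  hLam1 := by
    have := nP_ge d
    linarith
  hLam2 := by
    have := nP_ge d
    linarith
  hcN := by
    unfold cC
    rw [mul_assoc, ← mul_pow]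
    norm_num
  hε0 := eE_nonneg d
  hε1 := by
    have := eE_le d
    linarith
  hsteer := steer_cond d
  hτ := dom_cond d
  hΔ := le_rfl
  hγ := by
    have h1 := nP_ge d
    have h2 := eE_le d
    linarith
  hA := by
    have h1 := nP_ge d
    have h2 := eE_le d
    have h3 := eE_nonneg d
    nlinarith
  hη := by
    have := mul_eE d
    nlinarith
  hJ := by
    have h1 := nP_ge d
    set P : ℝ := (nP d : ℝ) with hP
    have h2 : (P ≤ P ^ 2) := by nlinarith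
    have h3 : (1 ≤ P ^ 2) := by nlinarith
    have h4 : (P ^ 2 ≤ P ^ 4) := by nlinarith
    have h5 : (1 ≤ P ^ 4) := by nlinarith
    have h6 : (P ≤ P ^ 4) := by linarith
    have hcast : ((64 * nP d : ℕ) : ℝ) = 64 * P := by
      push_cast
      rfl
    rw [hcast]
    have ha : 8 * P + 21 + (2 * (8 * P + 21) + 2) * (64 * P + 1) ≤ 3929 * P ^ 2 := by
      nlinarith
    have ha0 : 0 ≤ 8 * P + 21 + (2 * (8 * P + 21) + 2) * (64 * P + 1) := by positivity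
    have ha2 : (8 * P + 21 + (2 * (8 * P + 21) + 2) * (64 * P + 1)) ^ 2 ≤ (3929 * P ^ 2) ^ 2 :=
      pow_le_pow_left₀ ha0 ha 2
    have hs : Real.sqrt (2200 * P) ≤ 47 * P := by
      refine Real.sqrt_le_iff.2 ⟨by positivity, ?_⟩
      nlinarith
    have hj : jJ d = 16000000 * P ^ 4 := rfl
    rw [hj]
    nlinarith
  hB := le_rfl

end Vale.Agent.Lib.P262B
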