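import Vale.Agent.Lib.P262B.Steer

/-!
# The slack in the potential of the low block
-/

open Finset

namespace Vale.Agent.Lib.P262B

set_option linter.unusedSectionVars false
set_option linter.unusedSimpArgs false
set_option linter.unusedVariables false

/-- The slack term. -/
noncomputable def Xi (A γ r a S : ℝ) : ℝ := A * a ^ 2 + r * min S (4 * r) + γ * r * min a r + a

lemma Xi_nonneg {A γ r a S : ℝ} (hA : 0 ≤ A) (hγ : 0 ≤ γ) (hr : 0 ≤ r) (ha : 0 ≤ a) (hS : 0 ≤ S) :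
    0 ≤ Xi A γ r a S := by
  unfold Xi
  have h1 : 0 ≤ min S (4 * r) := le_min hS (by linarith)
  have h2 : 0 ≤ min a r := le_min ha hr
  positivity

/-- The step inequality for the slack. -/
lemma xi_step {A γ κ K η r rC a aC S SC q a₂ : ℝ} (hA : 0 ≤ A) (hγ : 0 ≤ γ) (hκ : 0 ≤ κ) (hK : 0 ≤ K)
    (hr : 0 ≤ r) (hrC : 0 ≤ rC) (hrCr : rC ≤ r) (ha : 0 ≤ a) (haC : 0 ≤ aC)
    (haCa : aC ^ 2 ≤ 43 / 50 * a ^ 2) (hS : 0 ≤ S) (hSC : 0 ≤ SC) (hSCS : SC ≤ S / 2 + κ * a)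
    (hq : 0 ≤ q) (hqa : q ≤ a) (hqr : q ≤ r) (ha₂ : 0 ≤ a₂) (ha₂a : a₂ ≤ a)
    (hγκ : κ + 1 / 2 ≤ γ * (7 / 100)) (hAκ : κ + 3 / 4 + K ≤ 7 / 50 * A) (hη : η ≤ 7 / 100) :
    Xi A γ rC aC SC ≤ Xi A γ r a S ∧
    Xi A γ rC aC SC + (1 / 2 * r * q + 1 / 4 * q ^ 2 + 1 / 2 * r * S - 1 / 4 * S ^ 2 + η * a₂
      + K * a₂ ^ 2) ≤ Xi A γ r a S := by
  have hra : aC ≤ 93 / 100 * a := by
    by_contra hcon
    push Not at hcon
    nlinarith
  set m' := min (S / 2 + κ * a) (4 * r) with hm'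
  have hm0 : 0 ≤ min SC (4 * rC) := le_min hSC (by linarith)
  have hm1 : min SC (4 * rC) ≤ m' :=
    le_min (le_trans (min_le_left _ _) hSCS) (le_trans (min_le_right _ _) (by linarith))
  have hT0 : rC * min SC (4 * rC) ≤ r * m' := mul_le_mul hrCr hm1 hm0 hr
  have hκra : 0 ≤ κ * r * a := by positivity
  have hm2 : m' ≤ S / 2 + κ * a := min_le_left _ _
  have hm3 : m' ≤ 4 * r := min_le_right _ _
  have hT1 : r * m' ≤ r * min S (4 * r) + κ * r * a := by
    rcases le_total S (4 * r) with hle | hle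
    · rw [min_eq_left hle]
      have h1 : r * m' ≤ r * (S / 2 + κ * a) := mul_le_mul_of_nonneg_left hm2 hr
      nlinarith [mul_nonneg hr hS]
    · rw [min_eq_right hle]
      have h1 : r * m' ≤ r * (4 * r) := mul_le_mul_of_nonneg_left hm3 hr
      linarith
  have hT2 : r * m' + (1 / 2 * r * S - 1 / 4 * S ^ 2) ≤ r * min S (4 * r) + κ * r * a := by
    rcases le_total S (4 * r) with hle | hle
    · rw [min_eq_left hle]
      have h1 : r * m' ≤ r * (S / 2 + κ * a) := mul_le_mul_of_nonneg_left hm2 hr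
      nlinarith [sq_nonneg S]
    · rw [min_eq_right hle]
      have h1 : r * m' ≤ r * (4 * r) := mul_le_mul_of_nonneg_left hm3 hr
      have h2 : 1 / 2 * r * S - 1 / 4 * S ^ 2 ≤ 0 := by
        nlinarith [mul_nonneg hS hr, mul_nonneg hS hS]
      linarith
  have hminC : min aC rC ≤ aC := min_le_left _ _
  have hminC' : min aC rC ≤ rC := min_le_right _ _
  have hminC0 : 0 ≤ min aC rC := le_min haC hrC
  -- the payment for the cross term
  have hΓ : ∃ Γ : ℝ, γ * rC * min aC rC + Γ ≤ γ * r * min a r ∧ 0 ≤ Γ ∧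
      (κ + 1 / 2) * (r * a) ≤ Γ + (κ + 1 / 2) * a ^ 2 := by
    rcases le_total r a with hle | hle
    · refine ⟨0, ?_, le_rfl, ?_⟩
      · rw [min_eq_right hle, add_zero]
        have h1 : rC * min aC rC ≤ r * r := mul_le_mul hrCr (hminC'.trans hrCr) hminC0 hr
        calc γ * rC * min aC rC = γ * (rC * min aC rC) := by ring
          _ ≤ γ * (r * r) := mul_le_mul_of_nonneg_left h1 hγ
          _ = γ * r * r := by ring
      · have h1 : r * a ≤ a * a := mul_le_mul_of_nonneg_right hle ha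
        have h2 : (κ + 1 / 2) * (r * a) ≤ (κ + 1 / 2) * (a * a) :=
          mul_le_mul_of_nonneg_left h1 (by linarith)
        nlinarith
    · refine ⟨γ * (7 / 100) * (r * a), ?_, by positivity, ?_⟩
      · rw [min_eq_left hle]
        have h1 : rC * min aC rC ≤ r * (93 / 100 * a) :=
          mul_le_mul hrCr (hminC.trans hra) hminC0 hr
        have h2 : γ * (rC * min aC rC) ≤ γ * (r * (93 / 100 * a)) :=
          mul_le_mul_of_nonneg_left h1 hγ
        linarith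
      · have h1 : (κ + 1 / 2) * (r * a) ≤ γ * (7 / 100) * (r * a) :=
          mul_le_mul_of_nonneg_right hγκ (by positivity)
        have h2 := mul_nonneg (by linarith : 0 ≤ κ + 1 / 2) (sq_nonneg a)
        linarith
  obtain ⟨Γ, hΓ1, hΓ0, hΓ2⟩ := hΓ
  have hAa : A * aC ^ 2 ≤ A * (43 / 50 * a ^ 2) := mul_le_mul_of_nonneg_left haCa hA
  have hpay : (κ + 3 / 4 + K) * a ^ 2 ≤ 7 / 50 * A * a ^ 2 :=
    mul_le_mul_of_nonneg_right hAκ (sq_nonneg a)
  have hq1 : r * q ≤ r * a := mul_le_mul_of_nonneg_left hqa hr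
  have hq2 : q ^ 2 ≤ a ^ 2 := pow_le_pow_left₀ hq hqa 2
  have ha₂2 : a₂ ^ 2 ≤ a ^ 2 := pow_le_pow_left₀ ha₂ ha₂a 2
  have hηa : η * a₂ ≤ 7 / 100 * a := by
    rcases le_total 0 η with h0 | h0
    · exact mul_le_mul hη ha₂a ha₂ (by norm_num)
    · have h1 : η * a₂ ≤ 0 := mul_nonpos_of_nonpos_of_nonneg h0 ha₂
      linarith
  have hKa : K * a₂ ^ 2 ≤ K * a ^ 2 := mul_le_mul_of_nonneg_left ha₂2 hK
  have hκa : 0 ≤ κ * a ^ 2 := by positivity
  have hKa0 : 0 ≤ K * a ^ 2 := by positivity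
  have ha2 : 0 ≤ a ^ 2 := sq_nonneg a
  have hra0 : 0 ≤ r * a := by positivity
  constructor
  · unfold Xi
    linarith
  · unfold Xi
    linarith

/-- Contraction of the mass outside the top element. -/
lemma low_contract {p₂ E EC ε : ℝ} (hp : 0 ≤ p₂) (hE : 0 ≤ E) (hε : 0 ≤ ε) (hε1 : ε ≤ 1 / 100)
    (h1 : EC ≤ E) (h2 : EC ≤ E / 2 + ε * Real.sqrt (p₂ * E) + 2 * p₂) :
    EC ≤ 43 / 50 * (p₂ + E) := by
  rcases le_total E (6 * p₂) with hle | hle
  · linarith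
  · have hs : Real.sqrt (p₂ * E) ≤ E / 2 := by
      refine Real.sqrt_le_iff.2 ⟨by linarith, ?_⟩
      nlinarith
    have h3 : ε * Real.sqrt (p₂ * E) ≤ 1 / 100 * (E / 2) :=
      mul_le_mul hε1 hs (Real.sqrt_nonneg _) (by norm_num)
    linarith

end Vale.Agent.Lib.P262B
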