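import Vale.Agent.Lib.P262B.Walk

/-!
# Flat rounding

From a point of the cube to a vertex, keeping all coordinates of the sum flat.
-/

open Finset

namespace Vale.Agent.Lib.P262B

set_option linter.unusedSectionVars false
set_option linter.unusedSimpArgs false
set_option linter.unusedVariables false

variable {ι : Type*} [Fintype ι] [DecidableEq ι] {d : ℕ}

/-- Squared length on a block of coordinates. -/
def sqs (L : Finset (Fin d)) (a : Fin d → ℝ) : ℝ := ∑ j ∈ L, (a j) ^ 2

/-- Length on a block of coordinates. -/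
noncomputable def nrm (L : Finset (Fin d)) (a : Fin d → ℝ) : ℝ := Real.sqrt (sqs L a)

lemma sqs_nonneg (L : Finset (Fin d)) (a : Fin d → ℝ) : 0 ≤ sqs L a :=
  Finset.sum_nonneg fun _ _ => sq_nonneg _

lemma nrm_nonneg (L : Finset (Fin d)) (a : Fin d → ℝ) : 0 ≤ nrm L a := Real.sqrt_nonneg _

lemma nrm_sq (L : Finset (Fin d)) (a : Fin d → ℝ) : (nrm L a) ^ 2 = sqs L a :=
  Real.sq_sqrt (sqs_nonneg L a)

/-- Inner product on a block of coordinates. -/
def ipr (L : Finset (Fin d)) (a c : Fin d → ℝ) : ℝ := ∑ j ∈ L, a j * c j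

lemma ipr_le (L : Finset (Fin d)) (a c : Fin d → ℝ) : ipr L a c ≤ nrm L a * nrm L c := by
  simpa [ipr, nrm, sqs] using Real.sum_mul_le_sqrt_mul_sqrt L a c

lemma sqs_add (L : Finset (Fin d)) (a c : Fin d → ℝ) :
    sqs L (a + c) = sqs L a + 2 * ipr L a c + sqs L c := by
  simp only [sqs, ipr, Pi.add_apply, Finset.mul_sum, ← Finset.sum_add_distrib]
  exact Finset.sum_congr rfl fun j _ => by ring

lemma abs_ipr_le (L : Finset (Fin d)) (a c : Fin d → ℝ) : |ipr L a c| ≤ nrm L a * nrm L c := by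
  rw [abs_le]
  constructor
  · have h := ipr_le L (-a) c
    have h1 : ipr L (-a) c = - ipr L a c := by simp [ipr, Finset.sum_neg_distrib]
    have h2 : nrm L (-a) = nrm L a := by simp [nrm, sqs]
    rw [h1, h2] at h
    linarith
  · exact ipr_le L a c

lemma nrm_add_le (L : Finset (Fin d)) (a c : Fin d → ℝ) : nrm L (a + c) ≤ nrm L a + nrm L c := by
  have h1 := nrm_nonneg L a
  have h2 := nrm_nonneg L c
  refine Real.sqrt_le_iff.2 ⟨add_nonneg h1 h2, ?_⟩
  rw [sqs_add]
  have h3 := ipr_le L a c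
  have h4 := nrm_sq L a
  have h5 := nrm_sq L c
  nlinarith

variable (v : ι → Fin d → ℝ)

/-- Coordinate row. -/
def rowC (j : Fin d) : ι → ℝ := fun i => v i j
/-- Energy row. -/
def rowE (j : Fin d) : ι → ℝ := fun i => (v i j) ^ 2
/-- Mixed row. -/
def rowP (j l : Fin d) : ι → ℝ := fun i => v i j * v i l
/-- Mass of a vector on a block. -/
def pm (L : Finset (Fin d)) : ι → ℝ := fun i => ∑ j ∈ L, (v i j) ^ 2
/-- The functional of a vector on a block. -/
def rowZ (L : Finset (Fin d)) (ζ : Fin d → ℝ) : ι → ℝ := fun i => ∑ j ∈ L, ζ j * v i j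

/-- The sum vector of a displacement. -/
def ev (c : ι → ℝ) : Fin d → ℝ := fun j => dot (rowC v j) c

variable {v}

lemma pm_nonneg (L : Finset (Fin d)) (i : ι) : 0 ≤ pm v L i :=
  Finset.sum_nonneg fun _ _ => sq_nonneg _

lemma pm_le (hv : ∀ i, ∑ j, (v i j) ^ 2 ≤ 1) (L : Finset (Fin d)) (i : ι) : pm v L i ≤ 1 :=
  le_trans (Finset.sum_le_sum_of_subset_of_nonneg (Finset.subset_univ _)
    (fun _ _ _ => sq_nonneg _)) (hv i)

lemma coord_sq_le (hv : ∀ i, ∑ j, (v i j) ^ 2 ≤ 1) (i : ι) (j : Fin d) : (v i j) ^ 2 ≤ 1 :=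
  le_trans (Finset.single_le_sum (f := fun j => (v i j) ^ 2) (fun _ _ => sq_nonneg _)
    (Finset.mem_univ j)) (hv i)

lemma coord_abs_le (hv : ∀ i, ∑ j, (v i j) ^ 2 ≤ 1) (i : ι) (j : Fin d) : |v i j| ≤ 1 := by
  have := coord_sq_le hv i j
  rw [← sq_abs] at this
  nlinarith [abs_nonneg (v i j)]

omit [DecidableEq ι] in
/-- A displacement supported on `A`, in the cube, and a bounded row. -/
lemma abs_dot_le (a c : ι → ℝ) (A : Finset ι) (M : ℝ) (hc : ∀ i, i ∉ A → c i = 0)
    (hc1 : ∀ i, |c i| ≤ 1) (ha : ∀ i ∈ A, |a i| ≤ M) : |dot a c| ≤ A.card * M := by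
  have h1 : dot a c = ∑ i ∈ A, a i * c i := by
    unfold dot
    refine (Finset.sum_subset (Finset.subset_univ A) ?_).symm
    intro i _ hi
    simp [hc i hi]
  rw [h1]
  calc |∑ i ∈ A, a i * c i| ≤ ∑ i ∈ A, |a i * c i| := Finset.abs_sum_le_sum_abs _ _
    _ ≤ ∑ i ∈ A, M := by
        refine Finset.sum_le_sum fun i hi => ?_
        rw [abs_mul]
        have := ha i hi
        have h2 := hc1 i
        nlinarith [abs_nonneg (a i), abs_nonneg (c i)]
    _ = A.card * M := by simp

omit [DecidableEq ι] in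
/-- Cauchy for a displacement supported on `A`. -/
lemma sqs_ev_le (L : Finset (Fin d)) (c : ι → ℝ) (A : Finset ι) (hc : ∀ i, i ∉ A → c i = 0)
    (hc1 : ∀ i, |c i| ≤ 1) : sqs L (ev v c) ≤ A.card * ∑ i ∈ A, pm v L i := by
  have h0 : ∀ j, ev v c j = ∑ i ∈ A, v i j * c i := by
    intro j
    unfold ev dot rowC
    refine (Finset.sum_subset (Finset.subset_univ A) ?_).symm
    intro i _ hi
    simp [hc i hi]
  have h1 : ∀ j, (ev v c j) ^ 2 ≤ A.card * ∑ i ∈ A, (v i j) ^ 2 := by
    intro j
    rw [h0]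
    calc (∑ i ∈ A, v i j * c i) ^ 2 ≤ A.card * ∑ i ∈ A, (v i j * c i) ^ 2 :=
          sq_sum_le_card_mul_sum_sq
      _ ≤ A.card * ∑ i ∈ A, (v i j) ^ 2 := by
          refine mul_le_mul_of_nonneg_left (Finset.sum_le_sum fun i _ => ?_) (by positivity)
          have h2 := hc1 i
          have h3 : (c i) ^ 2 ≤ 1 := by
            rw [← sq_abs]
            nlinarith [abs_nonneg (c i)]
          rw [mul_pow]
          nlinarith [sq_nonneg (v i j)]
  calc sqs L (ev v c) ≤ ∑ j ∈ L, (A.card : ℝ) * ∑ i ∈ A, (v i j) ^ 2 :=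
        Finset.sum_le_sum fun j _ => h1 j
    _ = A.card * ∑ i ∈ A, pm v L i := by
        rw [← Finset.mul_sum, Finset.sum_comm]
        rfl

omit [DecidableEq ι] in
lemma ev_add (c c' : ι → ℝ) : ev v (c + c') = ev v c + ev v c' := by
  funext j
  simp [ev, dot_add_right]

omit [DecidableEq ι] in
lemma ipr_ev (L : Finset (Fin d)) (ζ : Fin d → ℝ) (c : ι → ℝ) :
    ipr L ζ (ev v c) = dot (rowZ v L ζ) c := by
  simp only [ipr, ev, dot, rowC, rowZ, Finset.mul_sum, Finset.sum_mul]
  rw [Finset.sum_comm]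
  exact Finset.sum_congr rfl fun i _ => Finset.sum_congr rfl fun j _ => by ring

/-- Rounding the coordinates of `S` one at a time with the favourable sign. -/
lemma round_signs (L : Finset (Fin d)) (ζ : Fin d → ℝ) (t : ι → ℝ) (ht : Box t) (S : Finset ι) :
    ∃ χ : ι → ℝ, (∀ i ∈ S, χ i = 0 ∨ χ i = 1) ∧ (∀ i, i ∉ S → χ i = t i) ∧
      sqs L (ζ + ev v (χ - t)) ≤ sqs L ζ + ∑ i ∈ S, pm v L i := by
  induction S using Finset.induction_on with
  | empty =>
    refine ⟨t, by simp, fun _ _ => rfl, ?_⟩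
    have h0 : ev v (0 : ι → ℝ) = 0 := by
      funext j
      simp [ev, dot]
    simp [h0]
  | insert a S ha ih =>
    obtain ⟨χ, h1, h2, h3⟩ := ih
    set ζ₁ := ζ + ev v (χ - t) with hζ₁
    -- the sign
    have hsign : ∃ x : ℝ, (x = 0 ∨ x = 1) ∧ (x - t a) * dot (rowZ v L ζ₁) (Pi.single a 1) ≤ 0 := by
      by_cases h : dot (rowZ v L ζ₁) (Pi.single a 1) ≤ 0
      · refine ⟨1, Or.inr rfl, ?_⟩
        have := (ht a).2
        exact mul_nonpos_of_nonneg_of_nonpos (by linarith) h
      · refine ⟨0, Or.inl rfl, ?_⟩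
        have := (ht a).1
        push Not at h
        exact mul_nonpos_of_nonpos_of_nonneg (by linarith) h.le
    obtain ⟨x, hx, hxs⟩ := hsign
    let χ' : ι → ℝ := Function.update χ a x
    have hdiff : χ' - t = (χ - t) + (x - t a) • (Pi.single a 1 : ι → ℝ) := by
      funext i
      by_cases hi : i = a
      · subst hi
        have h4 := h2 i ha
        simp [χ', h4]
      · simp [χ', hi, Pi.single_apply]
    refine ⟨χ', ?_, ?_, ?_⟩
    · intro i hi
      rcases Finset.mem_insert.1 hi with rfl | hi'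
      · simpa [χ'] using hx
      · have hne : i ≠ a := fun h => ha (h ▸ hi')
        simpa [χ', hne] using h1 i hi'
    · intro i hi
      have hne : i ≠ a := fun h => hi (h ▸ Finset.mem_insert_self _ _)
      have hi' : i ∉ S := fun h => hi (Finset.mem_insert_of_mem h)
      simp [χ', hne, h2 i hi']
    · have h5 : ζ + ev v (χ' - t) = ζ₁ + ev v ((x - t a) • (Pi.single a 1 : ι → ℝ)) := by
        rw [hdiff, ev_add, hζ₁]
        abel
      rw [h5, sqs_add]
      have h6 : ipr L ζ₁ (ev v ((x - t a) • (Pi.single a 1 : ι → ℝ)))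
          = (x - t a) * dot (rowZ v L ζ₁) (Pi.single a 1) := by
        rw [ipr_ev, dot_smul_right]
      have h7 : sqs L (ev v ((x - t a) • (Pi.single a 1 : ι → ℝ))) ≤ pm v L a := by
        have h8 : ∀ j, ev v ((x - t a) • (Pi.single a 1 : ι → ℝ)) j = (x - t a) * v a j := by
          intro j
          simp only [ev, dot_smul_right]
          congr 1
          simp [dot, rowC, Pi.single_apply]
        have h9 : (x - t a) ^ 2 ≤ 1 := by
          have := ht a
          rcases hx with rfl | rfl <;> nlinarith [this.1, this.2]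
        simp only [sqs, pm, h8]
        refine Finset.sum_le_sum fun j _ => ?_
        rw [mul_pow]
        nlinarith [sq_nonneg (v a j)]
      rw [h6, Finset.sum_insert ha]
      linarith

omit [DecidableEq ι] in
lemma not_frac {t : ι → ℝ} (ht : Box t) {i : ι} (hi : i ∉ frac t) : t i = 0 ∨ t i = 1 := by
  by_contra hcon
  push Not at hcon
  have h1 := ht i
  exact hi (mem_frac.2 ⟨lt_of_le_of_ne h1.1 (Ne.symm hcon.1), lt_of_le_of_ne h1.2 hcon.2⟩)

omit [DecidableEq ι] in
lemma dot_scale (a s : ι → ℝ) (c : ℝ) : dot (fun i => c * a i) s = c * dot a s := by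
  simp only [dot, Finset.mul_sum]
  exact Finset.sum_congr rfl fun i _ => by ring

omit [DecidableEq ι] in
lemma abs_diff_le_one {x y : ℝ} (hx : 0 ≤ x ∧ x ≤ 1) (hy : 0 ≤ y ∧ y ≤ 1) : |x - y| ≤ 1 := by
  rw [abs_le]
  constructor <;> linarith [hx.1, hx.2, hy.1, hy.2]

/-- The last stage of the rounding: few fractional coordinates. -/
lemma round_small (hv : ∀ i, ∑ j, (v i j) ^ 2 ≤ 1) (L : Finset (Fin d)) (ζ : Fin d → ℝ)
    (pmax : ℝ) (hpmax : 0 ≤ pmax) (t : ι → ℝ) (ht : Box t) (hcard : (frac t).card ≤ 21)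
    (hp : ∀ i ∈ frac t, pm v L i ≤ pmax) :
    ∃ χ : ι → ℝ, (∀ i, χ i = 0 ∨ χ i = 1) ∧ (∀ i, i ∉ frac t → χ i = t i) ∧
      (∀ j, |dot (rowC v j) (χ - t)| ≤ 21) ∧ (∀ j, |dot (rowE v j) (χ - t)| ≤ 21) ∧
      |dot (pm v L) (χ - t)| ≤ 2 * pmax ∧
      sqs L (ζ + ev v (χ - t)) ≤ sqs L ζ + 22 * ∑ i ∈ frac t, pm v L i ∧
      nrm L (ev v (χ - t)) ≤ 5 * Real.sqrt (∑ i ∈ frac t, pm v L i) := by
  obtain ⟨t', hb', hoff', hdot', hcard', hsub'⟩ :=
    kernel_walk ({pm v L, rowZ v L ζ} : Finset (ι → ℝ)) _ t le_rfl ht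
  have hcard2 : (frac t').card ≤ 2 := le_trans hcard' Finset.card_le_two
  obtain ⟨χ, h1, h2, h3⟩ := round_signs (v := v) L (ζ + ev v (t' - t)) t' hb' (frac t')
  have hχ01 : ∀ i, χ i = 0 ∨ χ i = 1 := by
    intro i
    by_cases hi : i ∈ frac t'
    · exact h1 i hi
    · rw [h2 i hi]
      exact not_frac hb' hi
  have hχbox : Box χ := by
    intro i
    rcases hχ01 i with h | h <;> rw [h] <;> norm_num
  have hχoff : ∀ i, i ∉ frac t → χ i = t i := by
    intro i hi
    rw [h2 i (fun h => hi (hsub' h)), hoff' i hi]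
  have hc0 : ∀ i, i ∉ frac t → (χ - t) i = 0 := by
    intro i hi
    simp [hχoff i hi]
  have hc1 : ∀ i, |(χ - t) i| ≤ 1 := fun i => abs_diff_le_one (hχbox i) (ht i)
  have hsplit : χ - t = (χ - t') + (t' - t) := by abel
  have hE0 : 0 ≤ ∑ i ∈ frac t, pm v L i := Finset.sum_nonneg fun i _ => pm_nonneg L i
  refine ⟨χ, hχ01, hχoff, ?_, ?_, ?_, ?_, ?_⟩
  · intro j
    have := abs_dot_le (rowC v j) (χ - t) (frac t) 1 hc0 hc1 (fun i _ => coord_abs_le hv i j)
    have hc : ((frac t).card : ℝ) ≤ 21 := by exact_mod_cast hcard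
    linarith
  · intro j
    have := abs_dot_le (rowE v j) (χ - t) (frac t) 1 hc0 hc1 (fun i _ => by
      simp only [rowE]
      rw [abs_of_nonneg (sq_nonneg _)]
      exact coord_sq_le hv i j)
    have hc : ((frac t).card : ℝ) ≤ 21 := by exact_mod_cast hcard
    linarith
  · rw [hsplit, dot_add_right, dot_sub_right (pm v L) t' t,
      hdot' _ (by simp), sub_self, add_zero]
    have h4 := abs_dot_le (pm v L) (χ - t') (frac t') pmax
      (fun i hi => by simp [h2 i hi])
      (fun i => abs_diff_le_one (hχbox i) (hb' i))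
      (fun i hi => by
        rw [abs_of_nonneg (pm_nonneg L i)]
        exact hp i (hsub' hi))
    have hc : ((frac t').card : ℝ) ≤ 2 := by exact_mod_cast hcard2
    calc _ ≤ ((frac t').card : ℝ) * pmax := h4
      _ ≤ 2 * pmax := mul_le_mul_of_nonneg_right hc hpmax
  · have h5 : ζ + ev v (χ - t) = (ζ + ev v (t' - t)) + ev v (χ - t') := by
      rw [hsplit, ev_add]
      abel
    rw [h5]
    have h6 : sqs L (ζ + ev v (t' - t)) ≤ sqs L ζ + 21 * ∑ i ∈ frac t, pm v L i := by
      rw [sqs_add, ipr_ev, dot_sub_right, hdot' _ (by simp), sub_self, mul_zero, add_zero]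
      have h7 := sqs_ev_le (v := v) L (t' - t) (frac t)
        (fun i hi => by simp [hoff' i hi])
        (fun i => abs_diff_le_one (hb' i) (ht i))
      have hc : ((frac t).card : ℝ) ≤ 21 := by exact_mod_cast hcard
      have h8 := mul_le_mul_of_nonneg_right hc hE0
      linarith
    have h9 : ∑ i ∈ frac t', pm v L i ≤ ∑ i ∈ frac t, pm v L i :=
      Finset.sum_le_sum_of_subset_of_nonneg hsub' (fun i _ _ => pm_nonneg L i)
    linarith
  · have h7 := sqs_ev_le (v := v) L (χ - t) (frac t) hc0 hc1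
    have hc : ((frac t).card : ℝ) ≤ 21 := by exact_mod_cast hcard
    have h8 := mul_le_mul_of_nonneg_right hc hE0
    have h10 : sqs L (ev v (χ - t)) ≤ 25 * ∑ i ∈ frac t, pm v L i := by linarith
    calc nrm L (ev v (χ - t)) ≤ Real.sqrt (25 * ∑ i ∈ frac t, pm v L i) := Real.sqrt_le_sqrt h10
      _ = 5 * Real.sqrt (∑ i ∈ frac t, pm v L i) := by
          rw [Real.sqrt_mul (by norm_num)]
          congr 1
          rw [show (25 : ℝ) = 5 ^ 2 by norm_num]
          exact Real.sqrt_sq (by norm_num)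

/-- Iterating the freezing walk. -/
lemma round_aux (hv : ∀ i, ∑ j, (v i j) ^ 2 ≤ 1) (L : Finset (Fin d)) (G : Fin d → ℝ)
    (hG : ∀ j, G j = 0 ∨ 8 ≤ G j) (pmax : ℝ) (hpmax : 0 ≤ pmax) :
    ∀ (Q : ℕ) (t : ι → ℝ) (ζ : Fin d → ℝ), Box t → (frac t).card ≤ 21 * 2 ^ Q →
      (∀ i ∈ frac t, pm v L i ≤ pmax) →
      ∃ χ : ι → ℝ, (∀ i, χ i = 0 ∨ χ i = 1) ∧ (∀ i, i ∉ frac t → χ i = t i) ∧
        (∀ j, |dot (rowC v j) (χ - t)| ≤ 8 * (Q : ℝ) + 21) ∧
        (∀ j, 0 < G j → |dot (rowE v j) (χ - t)| ≤ (Q : ℝ) * G j + 21) ∧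
        |dot (pm v L) (χ - t)| ≤ 2 * pmax ∧
        sqs L (ζ + ev v (χ - t)) ≤ sqs L ζ + (2 * (Q : ℝ) + 22) * ∑ i ∈ frac t, pm v L i ∧
        nrm L (ev v (χ - t)) ≤ (2 * (Q : ℝ) + 5) * Real.sqrt (∑ i ∈ frac t, pm v L i) := by
  intro Q
  induction Q with
  | zero =>
    intro t ζ ht hcard hp
    obtain ⟨χ, h1, h2, h3, h4, h5, h6, h7⟩ :=
      round_small hv L ζ pmax hpmax t ht (by simpa using hcard) hp
    refine ⟨χ, h1, h2, ?_, ?_, h5, ?_, ?_⟩
    · intro j
      simpa using h3 j
    · intro j _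
      simpa using h4 j
    · simpa using h6
    · simpa using h7
  | succ Q ih =>
    intro t ζ ht hcard hp
    have hQnn : (0 : ℝ) ≤ Q := Nat.cast_nonneg Q
    set E := ∑ i ∈ frac t, pm v L i with hE
    have hE0 : 0 ≤ E := Finset.sum_nonneg fun i _ => pm_nonneg L i
    have hsqE : 0 ≤ Real.sqrt E := Real.sqrt_nonneg E
    by_cases hsmall : (frac t).card ≤ 21
    · obtain ⟨χ, h1, h2, h3, h4, h5, h6, h7⟩ := round_small hv L ζ pmax hpmax t ht hsmall hp
      refine ⟨χ, h1, h2, ?_, ?_, h5, ?_, ?_⟩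
      · intro j
        have := h3 j
        push_cast
        linarith
      · intro j hj
        have := h4 j
        have hpos : 0 ≤ ((Q + 1 : ℕ) : ℝ) * G j := by positivity
        linarith
      · have : 0 ≤ (2 * ((Q + 1 : ℕ) : ℝ)) * E := by positivity
        push_cast at this ⊢
        nlinarith
      · have : 0 ≤ (2 * ((Q + 1 : ℕ) : ℝ)) * Real.sqrt E := by positivity
        push_cast at this ⊢
        nlinarith
    · push Not at hsmall
      set a := (frac t).card with ha
      have ha22 : 22 ≤ a := hsmall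
      have hapos : (0 : ℝ) < a := by
        have : 0 < a := by omega
        exact_mod_cast this
      set α : ℝ := (a : ℝ) / (32 * E) with hα
      have hαnn : 0 ≤ α := by positivity
      let b : Fin d ⊕ (Fin d ⊕ Fin d) → ι → ℝ :=
        Sum.elim (fun j i => (1 / 8 : ℝ) * rowC v j i)
          (Sum.elim (fun j i => (G j)⁻¹ * rowE v j i)
            (fun j i => (if j ∈ L then Real.sqrt α else 0) * rowC v j i))
      have hinv2 : ∀ j, ((G j)⁻¹) ^ 2 ≤ 1 / 64 := by
        intro j
        rcases hG j with h | h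
        · simp [h]
        · have h1 : (G j)⁻¹ ≤ 1 / 8 := by
            rw [inv_eq_one_div]
            exact one_div_le_one_div_of_le (by norm_num) h
          have h2 : 0 ≤ (G j)⁻¹ := by
            apply inv_nonneg.2
            linarith
          nlinarith
      have htrace : ∑ r, ∑ i ∈ frac t, (b r i) ^ 2 ≤ (a : ℝ) / 16 := by
        simp only [Fintype.sum_sum_type, b, Sum.elim_inl, Sum.elim_inr]
        have hT1 : ∑ j, ∑ i ∈ frac t, ((1 / 8 : ℝ) * rowC v j i) ^ 2 ≤ (a : ℝ) / 64 := by
          rw [Finset.sum_comm]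
          calc ∑ i ∈ frac t, ∑ j, ((1 / 8 : ℝ) * rowC v j i) ^ 2
              ≤ ∑ i ∈ frac t, (1 / 64 : ℝ) := by
                refine Finset.sum_le_sum fun i _ => ?_
                have h1 : ∑ j, ((1 / 8 : ℝ) * rowC v j i) ^ 2 = (1 / 64) * ∑ j, (v i j) ^ 2 := by
                  rw [Finset.mul_sum]
                  exact Finset.sum_congr rfl fun j _ => by simp only [rowC]; ring
                rw [h1]
                have := hv i
                linarith
            _ = (a : ℝ) / 64 := by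
                rw [Finset.sum_const, nsmul_eq_mul]
                ring
        have hT2 : ∑ j, ∑ i ∈ frac t, ((G j)⁻¹ * rowE v j i) ^ 2 ≤ (a : ℝ) / 64 := by
          rw [Finset.sum_comm]
          calc ∑ i ∈ frac t, ∑ j, ((G j)⁻¹ * rowE v j i) ^ 2
              ≤ ∑ i ∈ frac t, (1 / 64 : ℝ) := by
                refine Finset.sum_le_sum fun i _ => ?_
                have h1 : ∑ j, ((G j)⁻¹ * rowE v j i) ^ 2 ≤ ∑ j, (1 / 64) * (v i j) ^ 2 := by
                  refine Finset.sum_le_sum fun j _ => ?_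
                  simp only [rowE]
                  have h2 := hinv2 j
                  have h3 := coord_sq_le hv i j
                  have h4 : 0 ≤ (v i j) ^ 2 := sq_nonneg _
                  have h5 : ((v i j) ^ 2) ^ 2 ≤ (v i j) ^ 2 := by nlinarith
                  rw [mul_pow]
                  calc ((G j)⁻¹) ^ 2 * ((v i j) ^ 2) ^ 2 ≤ (1 / 64) * ((v i j) ^ 2) ^ 2 :=
                        mul_le_mul_of_nonneg_right h2 (sq_nonneg _)
                    _ ≤ (1 / 64) * (v i j) ^ 2 := by linarith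
                rw [← Finset.mul_sum] at h1
                have := hv i
                linarith
            _ = (a : ℝ) / 64 := by
                rw [Finset.sum_const, nsmul_eq_mul]
                ring
        have hT3 : ∑ j, ∑ i ∈ frac t,
            ((if j ∈ L then Real.sqrt α else 0) * rowC v j i) ^ 2 ≤ (a : ℝ) / 32 := by
          rw [Finset.sum_comm]
          have h1 : ∀ i, ∑ j, ((if j ∈ L then Real.sqrt α else 0) * rowC v j i) ^ 2
              = α * pm v L i := by
            intro i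
            have h2 : ∀ j, ((if j ∈ L then Real.sqrt α else 0) * rowC v j i) ^ 2
                = if j ∈ L then α * (v i j) ^ 2 else 0 := by
              intro j
              split_ifs with hj
              · rw [mul_pow, Real.sq_sqrt hαnn]
                rfl
              · simp
            simp only [h2, Finset.sum_ite_mem, Finset.univ_inter, pm, Finset.mul_sum]
          simp only [h1]
          rw [← Finset.mul_sum]
          by_cases hE00 : E = 0
          · rw [← hE, hE00]
            simp only [mul_zero]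
            positivity
          · have hEpos : 0 < E := lt_of_le_of_ne hE0 (Ne.symm hE00)
            rw [← hE, hα]
            field_simp
            norm_num
        linarith
      obtain ⟨t₁, hinv, hhalf⟩ := phase_walk b ({pm v L, rowZ v L ζ} : Finset (ι → ℝ)) t a ha
        ha22 Finset.card_le_two htrace ht
      have hb₁ := hinv.box
      have hsub₁ := hinv.frac_subset
      set n : Fin d → ℝ := ev v (t₁ - t) with hn
      have hcoord : ∀ j, n j = dot (rowC v j) t₁ - dot (rowC v j) t := by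
        intro j
        simp [hn, ev, dot_sub_right]
      have hn8 : ∀ j, |n j| ≤ 8 := by
        intro j
        have h1 := hinv.row (Sum.inl j)
        simp only [b, Sum.elim_inl] at h1
        rw [dot_scale, dot_scale, ← mul_sub, ← hcoord, abs_mul] at h1
        norm_num at h1
        linarith [abs_nonneg (n j)]
      have hNj : ∀ j, 0 < G j → |dot (rowE v j) t₁ - dot (rowE v j) t| ≤ G j := by
        intro j hj
        have h1 := hinv.row (Sum.inr (Sum.inl j))
        simp only [b, Sum.elim_inl, Sum.elim_inr] at h1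
        rw [dot_scale, dot_scale, ← mul_sub, abs_mul, abs_of_pos (inv_pos.2 hj)] at h1
        rwa [inv_mul_le_iff₀ hj, mul_one] at h1
      have hsqsn : sqs L n ≤ 2 * E := by
        by_cases hE00 : E = 0
        · have h1 := sqs_ev_le (v := v) L (t₁ - t) (frac t)
            (fun i hi => by simp [hinv.off i hi])
            (fun i => abs_diff_le_one (hb₁ i) (ht i))
          rw [← hE, hE00, mul_zero] at h1
          rw [hE00, mul_zero]
          exact h1
        · have hEpos : 0 < E := lt_of_le_of_ne hE0 (Ne.symm hE00)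
          have h1 := hinv.sum_le
          rw [← ha] at h1
          simp only [Fintype.sum_sum_type, b, Sum.elim_inl, Sum.elim_inr] at h1
          have h2 : 0 ≤ ∑ j, (dot (fun i => (1 / 8 : ℝ) * rowC v j i) t₁
              - dot (fun i => (1 / 8 : ℝ) * rowC v j i) t) ^ 2 :=
            Finset.sum_nonneg fun _ _ => sq_nonneg _
          have h3 : 0 ≤ ∑ j, (dot (fun i => (G j)⁻¹ * rowE v j i) t₁
              - dot (fun i => (G j)⁻¹ * rowE v j i) t) ^ 2 :=
            Finset.sum_nonneg fun _ _ => sq_nonneg _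
          have h4 : ∀ j, (dot (fun i => (if j ∈ L then Real.sqrt α else 0) * rowC v j i) t₁
              - dot (fun i => (if j ∈ L then Real.sqrt α else 0) * rowC v j i) t) ^ 2
              = if j ∈ L then α * (n j) ^ 2 else 0 := by
            intro j
            rw [dot_scale, dot_scale, ← mul_sub, ← hcoord]
            split_ifs with hj
            · rw [mul_pow, Real.sq_sqrt hαnn]
            · simp
          simp only [h4, Finset.sum_ite_mem, Finset.univ_inter] at h1
          rw [← Finset.mul_sum] at h1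
          have h5 : α * sqs L n ≤ (a : ℝ) / 16 := by
            simp only [sqs]
            linarith
          have h6 : (a : ℝ) / (32 * E) * sqs L n ≤ (a : ℝ) / 16 := h5
          have h7 : (a : ℝ) / (32 * E) * sqs L n = (a : ℝ) * (sqs L n / (32 * E)) := by ring
          rw [h7] at h6
          have h8 : sqs L n / (32 * E) ≤ 1 / 16 := by
            have h9 : (a : ℝ) * (sqs L n / (32 * E)) ≤ (a : ℝ) * (1 / 16) := by linarith
            exact le_of_mul_le_mul_left h9 hapos
          rw [div_le_iff₀ (by positivity)] at h8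
          linarith
      have hcard₁ : (frac t₁).card ≤ 21 * 2 ^ Q := by
        have h1 : a ≤ 2 * (21 * 2 ^ Q) := by
          calc a ≤ 21 * 2 ^ (Q + 1) := hcard
            _ = 2 * (21 * 2 ^ Q) := by ring
        omega
      obtain ⟨χ, h1, h2, h3, h4, h5, h6, h7⟩ := ih t₁ (ζ + n) hb₁ hcard₁
        (fun i hi => hp i (hsub₁ hi))
      have hsplit : χ - t = (χ - t₁) + (t₁ - t) := by abel
      have hE₁ : ∑ i ∈ frac t₁, pm v L i ≤ E :=
        Finset.sum_le_sum_of_subset_of_nonneg hsub₁ (fun i _ _ => pm_nonneg L i)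
      have hE₁0 : 0 ≤ ∑ i ∈ frac t₁, pm v L i := Finset.sum_nonneg fun i _ => pm_nonneg L i
      refine ⟨χ, h1, ?_, ?_, ?_, ?_, ?_, ?_⟩
      · intro i hi
        rw [h2 i (fun h => hi (hsub₁ h)), hinv.off i hi]
      · intro j
        rw [hsplit, dot_add_right, dot_sub_right (rowC v j) t₁ t, ← hcoord]
        have h8 := h3 j
        have h9 := hn8 j
        push_cast
        calc _ ≤ |dot (rowC v j) (χ - t₁)| + |n j| := abs_add_le _ _
          _ ≤ _ := by linarith
      · intro j hj
        rw [hsplit, dot_add_right, dot_sub_right (rowE v j) t₁ t]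
        have h8 := h4 j hj
        have h9 := hNj j hj
        push_cast
        calc _ ≤ |dot (rowE v j) (χ - t₁)| + |dot (rowE v j) t₁ - dot (rowE v j) t| :=
              abs_add_le _ _
          _ ≤ _ := by linarith
      · rw [hsplit, dot_add_right, dot_sub_right (pm v L) t₁ t, hinv.perm _ (by simp), sub_self,
          add_zero]
        exact h5
      · have h8 : ζ + ev v (χ - t) = (ζ + n) + ev v (χ - t₁) := by
          rw [hsplit, ev_add]
          abel
        rw [h8]
        have h9 : sqs L (ζ + n) ≤ sqs L ζ + 2 * E := by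
          rw [sqs_add, hn, ipr_ev, dot_sub_right, hinv.perm _ (by simp), sub_self, mul_zero,
            add_zero]
          linarith
        have h10 : (2 * (Q : ℝ) + 22) * ∑ i ∈ frac t₁, pm v L i ≤ (2 * (Q : ℝ) + 22) * E :=
          mul_le_mul_of_nonneg_left hE₁ (by positivity)
        push_cast
        linarith
      · have h8 : nrm L (ev v (χ - t)) ≤ nrm L n + nrm L (ev v (χ - t₁)) := by
          rw [hsplit, ev_add, add_comm]
          exact nrm_add_le _ _ _
        have h9 : nrm L n ≤ 2 * Real.sqrt E := by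
          calc nrm L n ≤ Real.sqrt (4 * E) := Real.sqrt_le_sqrt (by linarith)
            _ = 2 * Real.sqrt E := by
                rw [Real.sqrt_mul (by norm_num)]
                congr 1
                rw [show (4 : ℝ) = 2 ^ 2 by norm_num]
                exact Real.sqrt_sq (by norm_num)
        have h10 : Real.sqrt (∑ i ∈ frac t₁, pm v L i) ≤ Real.sqrt E := Real.sqrt_le_sqrt hE₁
        have h11 : (2 * (Q : ℝ) + 5) * Real.sqrt (∑ i ∈ frac t₁, pm v L i)
            ≤ (2 * (Q : ℝ) + 5) * Real.sqrt E :=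
          mul_le_mul_of_nonneg_left h10 (by positivity)
        push_cast
        linarith

/-- The full rounding from a point of the cube to a vertex. -/
lemma rounding (hv : ∀ i, ∑ j, (v i j) ^ 2 ≤ 1) (P : ℕ) (hP : 2 * d + 1 ≤ 21 * 2 ^ P)
    (L : Finset (Fin d)) (G : Fin d → ℝ) (hG : ∀ j, G j = 0 ∨ 8 ≤ G j) (pmax : ℝ)
    (hpmax : 0 ≤ pmax) (t : ι → ℝ) (ζ : Fin d → ℝ) (ht : Box t)
    (hp : ∀ i ∈ frac t, pm v L i ≤ pmax) :
    ∃ χ : ι → ℝ, (∀ i, χ i = 0 ∨ χ i = 1) ∧ (∀ i, i ∉ frac t → χ i = t i) ∧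
      (∀ j, |dot (rowC v j) (χ - t)| ≤ 8 * (P : ℝ) + 21) ∧
      (∀ j, 0 < G j → |dot (rowE v j) (χ - t)| ≤ (P : ℝ) * G j + 21) ∧
      |dot (pm v L) (χ - t)| ≤ 2 * pmax ∧
      sqs L (ζ + ev v (χ - t)) ≤ sqs L ζ + (2 * (P : ℝ) + 22) * ∑ i ∈ frac t, pm v L i ∧
      nrm L (ev v (χ - t)) ≤ (2 * (P : ℝ) + 5) * Real.sqrt (∑ i ∈ frac t, pm v L i) ∧
      (∀ j l, |dot (rowP v j l) (χ - t)| ≤ (d : ℝ) ^ 2 + d + 1) := by
  classical
  set FA : Finset (ι → ℝ) := (univ.image (fun j => rowC v j)) ∪
    (univ.image (fun p : Fin d × Fin d => rowP v p.1 p.2)) ∪ {pm v L} with hFA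
  set FB : Finset (ι → ℝ) := (univ.image (fun j => rowC v j)) ∪
    (univ.image (fun j => rowE v j)) ∪ {pm v L} with hFB
  have hcA : FA.card ≤ d ^ 2 + d + 1 := by
    have h1 : (univ.image (fun j => rowC v j)).card ≤ d := by
      simpa using Finset.card_image_le (s := (univ : Finset (Fin d))) (f := fun j => rowC v j)
    have h2 : (univ.image (fun p : Fin d × Fin d => rowP v p.1 p.2)).card ≤ d ^ 2 := by
      have := Finset.card_image_le (s := (univ : Finset (Fin d × Fin d)))
        (f := fun p : Fin d × Fin d => rowP v p.1 p.2)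
      simpa [sq] using this
    have h3 : FA.card ≤ ((univ.image (fun j => rowC v j)) ∪
        (univ.image (fun p : Fin d × Fin d => rowP v p.1 p.2))).card
          + ({pm v L} : Finset (ι → ℝ)).card := Finset.card_union_le _ _
    have h4 := Finset.card_union_le (univ.image (fun j => rowC v j))
      (univ.image (fun p : Fin d × Fin d => rowP v p.1 p.2))
    simp only [Finset.card_singleton] at h3
    omega
  have hcB : FB.card ≤ 2 * d + 1 := by
    have h1 : (univ.image (fun j => rowC v j)).card ≤ d := by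
      simpa using Finset.card_image_le (s := (univ : Finset (Fin d))) (f := fun j => rowC v j)
    have h2 : (univ.image (fun j => rowE v j)).card ≤ d := by
      simpa using Finset.card_image_le (s := (univ : Finset (Fin d))) (f := fun j => rowE v j)
    have h3 : FB.card ≤ ((univ.image (fun j => rowC v j)) ∪
        (univ.image (fun j => rowE v j))).card
          + ({pm v L} : Finset (ι → ℝ)).card := Finset.card_union_le _ _
    have h4 := Finset.card_union_le (univ.image (fun j => rowC v j))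
      (univ.image (fun j => rowE v j))
    simp only [Finset.card_singleton] at h3
    omega
  obtain ⟨t₁, hb₁, hoff₁, hdot₁, hcard₁, hsub₁⟩ := kernel_walk FA _ t le_rfl ht
  obtain ⟨t₂, hb₂, hoff₂, hdot₂, hcard₂, hsub₂⟩ := kernel_walk FB _ t₁ le_rfl hb₁
  have hsub : frac t₂ ⊆ frac t := hsub₂.trans hsub₁
  obtain ⟨χ, h1, h2, h3, h4, h5, h6, h7⟩ := round_aux hv L G hG pmax hpmax P t₂ ζ hb₂
    (le_trans hcard₂ (le_trans hcB hP)) (fun i hi => hp i (hsub hi))
  have hC : ∀ j, dot (rowC v j) t₂ = dot (rowC v j) t := by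
    intro j
    rw [hdot₂ _ (by simp [hFB]), hdot₁ _ (by simp [hFA])]
  have hE : ∀ j, dot (rowE v j) t₂ = dot (rowE v j) t := by
    intro j
    rw [hdot₂ _ (by simp [hFB])]
    have : rowE v j = rowP v j j := by
      funext i
      simp [rowE, rowP, sq]
    rw [this]
    exact hdot₁ _ (by
      simp only [hFA, Finset.mem_union, Finset.mem_image]
      exact Or.inl (Or.inr ⟨(j, j), Finset.mem_univ _, rfl⟩))
  have hPm : dot (pm v L) t₂ = dot (pm v L) t := by
    rw [hdot₂ _ (by simp [hFB]), hdot₁ _ (by simp [hFA])]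
  have hPair : ∀ j l, dot (rowP v j l) t₁ = dot (rowP v j l) t := by
    intro j l
    exact hdot₁ _ (by
      simp only [hFA, Finset.mem_union, Finset.mem_image]
      exact Or.inl (Or.inr ⟨(j, l), Finset.mem_univ _, rfl⟩))
  have hsplit : χ - t = (χ - t₂) + (t₂ - t) := by abel
  have hev0 : ev v (t₂ - t) = 0 := by
    funext j
    simp [ev, dot_sub_right, hC j]
  have hev : ev v (χ - t) = ev v (χ - t₂) := by
    rw [hsplit, ev_add, hev0, add_zero]
  have hE₂ : ∑ i ∈ frac t₂, pm v L i ≤ ∑ i ∈ frac t, pm v L i :=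
    Finset.sum_le_sum_of_subset_of_nonneg hsub (fun i _ _ => pm_nonneg L i)
  have hχbox : Box χ := by
    intro i
    rcases h1 i with h | h <;> rw [h] <;> norm_num
  refine ⟨χ, h1, ?_, ?_, ?_, ?_, ?_, ?_, ?_⟩
  · intro i hi
    rw [h2 i (fun h => hi (hsub h)), hoff₂ i (fun h => hi (hsub₁ h)), hoff₁ i hi]
  · intro j
    rw [dot_sub_right, ← hC j, ← dot_sub_right]
    exact h3 j
  · intro j hj
    rw [dot_sub_right, ← hE j, ← dot_sub_right]
    exact h4 j hj
  · rw [dot_sub_right, ← hPm, ← dot_sub_right]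
    exact h5
  · rw [hev]
    have : (2 * (P : ℝ) + 22) * ∑ i ∈ frac t₂, pm v L i
        ≤ (2 * (P : ℝ) + 22) * ∑ i ∈ frac t, pm v L i :=
      mul_le_mul_of_nonneg_left hE₂ (by positivity)
    linarith
  · rw [hev]
    refine le_trans h7 (mul_le_mul_of_nonneg_left (Real.sqrt_le_sqrt hE₂) (by positivity))
  · intro j l
    rw [dot_sub_right, ← hPair j l, ← dot_sub_right]
    have hoffχ : ∀ i, i ∉ frac t₁ → (χ - t₁) i = 0 := by
      intro i hi
      simp [h2 i (fun h => hi (hsub₂ h)), hoff₂ i hi]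
    have := abs_dot_le (rowP v j l) (χ - t₁) (frac t₁) 1 hoffχ
      (fun i => abs_diff_le_one (hχbox i) (hb₁ i))
      (fun i _ => by
        simp only [rowP, abs_mul]
        have h8 := coord_abs_le hv i j
        have h9 := coord_abs_le hv i l
        nlinarith [abs_nonneg (v i j), abs_nonneg (v i l)])
    have hc : ((frac t₁).card : ℝ) ≤ (d : ℝ) ^ 2 + d + 1 := by
      have : (frac t₁).card ≤ d ^ 2 + d + 1 := le_trans hcard₁ hcA
      exact_mod_cast this
    linarith

end Vale.Agent.Lib.P262B
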