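import Vale.Agent.Lib.P262B.Node

/-!
# Existence of the split at a node
-/

open Finset

namespace Vale.Agent.Lib.P262B

set_option linter.unusedSectionVars false
set_option linter.unusedSimpArgs false
set_option linter.unusedVariables false

variable {ι : Type*} [Fintype ι] [DecidableEq ι] {d : ℕ}

lemma exists_split {v : ι → Fin d → ℝ} (hv : ∀ i, ∑ j, (v i j) ^ 2 ≤ 1) (p : Par d)
    {L : Finset (Fin d)} {G : Finset ι} {x y : Fin d → ℝ} {h : ι}
    (hy : y = x + sg v G) (horth : OInv p v G) (hax : AInv p v G x) (hay : AInv p v G y)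
    (htop : Top v L G h) (hxP : EndP p v L G h x) (hyP : EndP p v L G h y) (hcard : 2 ≤ G.card) :
    ∃ h₂ ea eb R R₁ R₂ D m, SplitData p v L G x y h h₂ ea eb R R₁ R₂ D m := by
  classical
  have hne : (G.erase h).Nonempty := by
    rw [← Finset.card_pos, Finset.card_erase_of_mem htop.1]
    omega
  obtain ⟨h₂, hh₂mem, hh₂max⟩ := Finset.exists_max_image (G.erase h) (pm v L) hne
  set R := (G.erase h).erase h₂ with hR
  have hG : G = insert h (insert h₂ R) := by
    rw [hR, Finset.insert_erase hh₂mem, Finset.insert_erase htop.1]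
  have hh₂R : h₂ ∉ R := Finset.notMem_erase _ _
  have hhne : h ∉ insert h₂ R := by
    rw [hR, Finset.insert_erase hh₂mem]
    exact Finset.notMem_erase _ _
  have hRG : R ⊆ G := (erase_subset _ _).trans (erase_subset _ _)
  have hR2 : ∀ i ∈ R, pm v L i ≤ pm v L h₂ := fun i hi => hh₂max i (Finset.mem_of_mem_erase hi)
  have hh₂h : pm v L h₂ ≤ pm v L h := htop.2 h₂ (Finset.mem_of_mem_erase hh₂mem)
  have hε0 := p.hε0
  have hβ := p.β_pos
  set avg : Fin d → ℝ := fun j => (x j + y j) / 2 with havg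
  obtain ⟨ea, eb, he, hsign⟩ : ∃ ea eb, ((ea = h ∧ eb = h₂) ∨ (ea = h₂ ∧ eb = h)) ∧
      ipr L avg (fun j => v ea j - v eb j) ≤ 0 := by
    by_cases hs : ipr L avg (fun j => v h j - v h₂ j) ≤ 0
    · exact ⟨h, h₂, Or.inl ⟨rfl, rfl⟩, hs⟩
    · refine ⟨h₂, h, Or.inr ⟨rfl, rfl⟩, ?_⟩
      have h1 : ipr L avg (fun j => v h₂ j - v h j) = - ipr L avg (fun j => v h j - v h₂ j) := by
        simp only [ipr, ← Finset.sum_neg_distrib]
        exact sum_congr rfl fun j _ => by ring
      rw [h1]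
      push Not at hs
      linarith
  set u : Fin d → ℝ := fun j => (v ea j - v eb j) / 2 with hu
  set g : Fin d → ℝ := fun k => -(avg k + u k) with hgdef
  have hu1 : ∀ j, |u j| ≤ 1 := by
    intro j
    have h1 := abs_le.1 (coord_abs_le hv ea j)
    have h2 := abs_le.1 (coord_abs_le hv eb j)
    simp only [hu]
    rw [abs_le]
    constructor <;> linarith [h1.1, h1.2, h2.1, h2.2]
  have hg : ∀ k, p.c ≤ mu v G k → |g k| ≤ p.β + 1 := by
    intro k hk
    have h1 := abs_le.1 (ainv_rich hax hk)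
    have h2 := abs_le.1 (ainv_rich hay hk)
    have h3 := abs_le.1 (hu1 k)
    simp only [hgdef, havg]
    rw [abs_le]
    constructor <;> linarith [h1.1, h1.2, h2.1, h2.2, h3.1, h3.2]
  obtain ⟨f, hf1, hf2, hf3⟩ := steer_node hv p hG hhne hh₂R horth g hg
  have hPpos : (0 : ℝ) < p.P := lt_of_lt_of_le one_pos p.P_pos
  set Gw : Fin d → ℝ := fun j => if p.Lam ≤ mu v G j then (mu v G j / 50) / (p.P : ℝ) else 0
    with hGw
  have hGw8 : ∀ j, Gw j = 0 ∨ 8 ≤ Gw j := by
    intro j
    by_cases hj : p.Lam ≤ mu v G j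
    · right
      simp only [hGw, hj, if_true]
      rw [le_div_iff₀ hPpos]
      have := p.hLam1
      linarith
    · left
      simp [hGw, hj]
  set δ : Fin d → ℝ := fun j => ∑ i ∈ R, f i * v i j with hδ
  set ζ : Fin d → ℝ := avg + u + δ with hζ
  obtain ⟨c, R₁, R₂, hU, hdisj, hs1, hs2, h1, h2, h3, h4, h5, h6⟩ := round_node hv p.P p.hP L R f
    p.ε p.hε0 p.ε_half hf2 Gw hGw8 (pm v L h₂) (pm_nonneg L h₂) hR2 ζ
  set D : (ι → ℝ) → ℝ := fun w => ∑ i ∈ R, f i * w i + dot w c with hD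
  set m : Fin d → ℝ := fun j => x j + v ea j + ∑ i ∈ R₁, v i j with hm
  set E2 : ℝ := ∑ i ∈ R, pm v L i with hE2
  have hE20 : 0 ≤ E2 := Finset.sum_nonneg fun i _ => pm_nonneg L i
  have hsG : ∀ j, sg v G j = v h j + (v h₂ j + ∑ i ∈ R, v i j) := fun j =>
    sum_decomp hG hhne hh₂R (fun i => v i j)
  have hsplitv : ∀ j, v ea j + v eb j = v h j + v h₂ j := by
    intro j
    rcases he with ⟨h7, h8⟩ | ⟨h7, h8⟩ <;> rw [h7, h8] <;> ring
  have hmz : ∀ j, m j = avg j + u j + δ j + dot (rowC v j) c := by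
    intro j
    have h7 : ∑ i ∈ R₁, v i j = 1 / 2 * ∑ i ∈ R, v i j + (δ j + dot (rowC v j) c) :=
      hs1 (rowC v j)
    have h8 : y j = x j + sg v G j := by
      rw [hy]
      rfl
    have h9 := hsG j
    have h10 := hsplitv j
    change x j + v ea j + ∑ i ∈ R₁, v i j
      = (x j + y j) / 2 + (v ea j - v eb j) / 2 + δ j + dot (rowC v j) c
    rw [h7, h8]
    linarith
  have hmζ : m = ζ + ev v c := by
    funext j
    rw [hmz j]
    simp [hζ, ev]
  have hfsum : ∀ (w : ι → ℝ) (M : ℝ), ∑ i ∈ R, (w i) ^ 2 ≤ M →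
      |∑ i ∈ R, f i * w i| ≤ p.ε * Real.sqrt M := by
    intro w M hM
    refine le_trans (abs_sum_mul_le hε0 hf2) ?_
    exact mul_le_mul_of_nonneg_left (Real.sqrt_le_sqrt hM) hε0
  have hmuR : ∀ l, ∑ i ∈ R, (v i l) ^ 2 ≤ mu v G l := fun l =>
    Finset.sum_le_sum_of_subset_of_nonneg hRG (fun _ _ _ => sq_nonneg _)
  have hδnrm : nrm L δ ≤ p.ε * Real.sqrt E2 := by
    have h7 : sqs L δ ≤ p.ε ^ 2 * E2 := by
      have h8 : E2 = ∑ j ∈ L, ∑ i ∈ R, (v i j) ^ 2 := by
        rw [hE2, Finset.sum_comm]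
        rfl
      rw [h8, Finset.mul_sum]
      refine Finset.sum_le_sum fun j _ => ?_
      have h9 := abs_sum_mul_le (w := fun i => v i j) hε0 hf2
      have h10 : (∑ i ∈ R, f i * v i j) ^ 2 ≤ (p.ε * Real.sqrt (∑ i ∈ R, (v i j) ^ 2)) ^ 2 := by
        rw [← sq_abs]
        exact pow_le_pow_left₀ (abs_nonneg _) h9 2
      rw [mul_pow, Real.sq_sqrt (Finset.sum_nonneg fun _ _ => sq_nonneg _)] at h10
      exact h10
    calc nrm L δ ≤ Real.sqrt (p.ε ^ 2 * E2) := Real.sqrt_le_sqrt h7
      _ = p.ε * Real.sqrt E2 := by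
          rw [Real.sqrt_mul (sq_nonneg _), Real.sqrt_sq hε0]
  have hB0 : 0 ≤ p.B := le_trans (sqs_nonneg L x) (sqs_le_of_EndP hxP)
  refine ⟨h₂, ea, eb, R, R₁, R₂, D, m, ?_⟩
  refine ⟨hG, hhne, hh₂R, hR2, hh₂h, he, hU, hdisj, hs1, hs2, fun j => rfl, ?_, ?_, ?_, ?_, ?_, ?_,
    ?_, ?_⟩
  · -- the second part reaches y
    intro j
    have h7 : ∑ i ∈ R₁, v i j = 1 / 2 * ∑ i ∈ R, v i j + (δ j + dot (rowC v j) c) :=
      hs1 (rowC v j)
    have h8 : ∑ i ∈ R₂, v i j = 1 / 2 * ∑ i ∈ R, v i j - (δ j + dot (rowC v j) c) :=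
      hs2 (rowC v j)
    have h9 : y j = x j + sg v G j := by
      rw [hy]
      rfl
    have h10 := hsG j
    have h11 := hsplitv j
    change y j = x j + v ea j + ∑ i ∈ R₁, v i j + v eb j + ∑ i ∈ R₂, v i j
    linarith
  · -- energies
    intro j hj
    have h7 : |∑ i ∈ R, f i * rowE v j i| ≤ p.ε * Real.sqrt (mu v G j) := by
      refine hfsum _ _ ?_
      refine le_trans (Finset.sum_le_sum fun i _ => ?_) (hmuR j)
      have h8 := coord_sq_le hv i j
      simp only [rowE]
      nlinarith [sq_nonneg (v i j)]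
    have h8 : 0 < Gw j := by
      have h9 : 0 < mu v G j := lt_of_lt_of_le p.Lam_pos hj
      simp only [hGw, hj, if_true]
      positivity
    have h9 := h2 j h8
    have h10 : (p.P : ℝ) * Gw j = mu v G j / 50 := by
      simp only [hGw, hj, if_true]
      field_simp
    rw [h10] at h9
    calc |D (rowE v j)| ≤ |∑ i ∈ R, f i * rowE v j i| + |dot (rowE v j) c| := abs_add_le _ _
      _ ≤ _ := by linarith
  · -- mixed moments
    intro j l
    have h7 : |∑ i ∈ R, f i * rowP v j l i| ≤ p.ε * Real.sqrt (mu v G l) := by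
      refine hfsum _ _ ?_
      refine le_trans (Finset.sum_le_sum fun i _ => ?_) (hmuR l)
      have h8 := coord_sq_le hv i j
      simp only [rowP]
      rw [mul_pow]
      nlinarith [sq_nonneg (v i l)]
    have h9 := h6 j l
    calc |D (rowP v j l)| ≤ |∑ i ∈ R, f i * rowP v j l i| + |dot (rowP v j l) c| := abs_add_le _ _
      _ ≤ _ := by linarith
  · -- the mass
    have h7 : |∑ i ∈ R, f i * pm v L i| ≤ p.ε * Real.sqrt (pm v L h₂ * E2) := by
      refine hfsum _ _ ?_
      rw [hE2, Finset.mul_sum]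
      refine Finset.sum_le_sum fun i hi => ?_
      have h8 := hR2 i hi
      have h9 := pm_nonneg (v := v) L i
      nlinarith
    calc |D (pm v L)| ≤ |∑ i ∈ R, f i * pm v L i| + |dot (pm v L) c| := abs_add_le _ _
      _ ≤ _ := by linarith
  · -- the length on the block
    have h7 : (fun j => D (rowC v j)) = δ + ev v c := by
      funext j
      simp [hD, hδ, ev, rowC]
    rw [h7]
    have h8 := nrm_add_le L δ (ev v c)
    have h9 : (p.ε + 2 * (p.P : ℝ) + 5) * Real.sqrt E2 = p.ε * Real.sqrt E2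
        + (2 * (p.P : ℝ) + 5) * Real.sqrt E2 := by ring
    rw [h9]
    linarith
  · -- rich coordinates
    intro j hj
    rw [hmz j]
    have h7 : δ j = g j := hf1 j hj
    have h8 : avg j + u j + δ j + dot (rowC v j) c = dot (rowC v j) c := by
      rw [h7]
      simp only [hgdef]
      ring
    rw [h8]
    exact h1 j
  · -- band coordinates
    intro j hj1 hj2
    rw [hmz j]
    have h7 : |δ j| ≤ p.β + 1 := hf3 j hj1 hj2
    have h8 : |avg j| ≤ max |x j| |y j| := by
      have h9 := le_max_left |x j| |y j|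
      have h10 := le_max_right |x j| |y j|
      have h11 := abs_le.1 h9
      have h12 := abs_le.1 h10
      simp only [havg]
      have h13 := le_abs_self (x j)
      have h14 := neg_abs_le (x j)
      have h15 := le_abs_self (y j)
      have h16 := neg_abs_le (y j)
      rw [abs_le]
      constructor <;> linarith
    have h9 := hu1 j
    have h10 : |dot (rowC v j) c| ≤ p.β := h1 j
    have h11 : p.s = 2 * p.β + 2 := rfl
    calc |avg j + u j + δ j + dot (rowC v j) c|
        ≤ |avg j + u j + δ j| + |dot (rowC v j) c| := abs_add_le _ _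
      _ ≤ |avg j + u j| + |δ j| + |dot (rowC v j) c| := by
          gcongr
          exact abs_add_le _ _
      _ ≤ |avg j| + |u j| + |δ j| + |dot (rowC v j) c| := by
          gcongr
          exact abs_add_le _ _
      _ ≤ _ := by linarith
  · -- the potential
    have h7 := mid_sqs L x y (v h) (v h₂) (v ea) (v eb) (sg v (G.erase h)) δ p.B p.ε
      (Real.sqrt E2) hB0 hε0 (Real.sqrt_nonneg _)
      (by
        intro j
        have h8 : y j = x j + sg v G j := by
          rw [hy]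
          rfl
        have h9 : sg v G j = v h j + sg v (G.erase h) j :=
          (Finset.add_sum_erase G (fun i => v i j) htop.1).symm
        linarith)
      (by
        rcases he with ⟨h8, h9⟩ | ⟨h8, h9⟩
        · left
          rw [h8, h9]
          exact ⟨rfl, rfl⟩
        · right
          rw [h8, h9]
          exact ⟨rfl, rfl⟩)
      hsign (sqs_le_of_EndP hxP) (sqs_le_of_EndP hyP) (sqrt_pm_le hv L h) (sqrt_pm_le hv L h₂)
      hδnrm
    have h8 : sqs L m ≤ sqs L ζ + (2 * (p.P : ℝ) + 22) * E2 := by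
      rw [hmζ]
      exact h4
    have h9 : (Real.sqrt E2) ^ 2 = E2 := Real.sq_sqrt hE20
    have h10 : sqs L ζ ≤ _ := h7
    have h11 : nrm L (v h) = Real.sqrt (pm v L h) := rfl
    have h12 : nrm L (v h₂) = Real.sqrt (pm v L h₂) := rfl
    have h13 : nrm L (sg v (G.erase h)) = Sp v L G h := rfl
    rw [h11, h12, h13] at h10
    rw [h9]
    rw [h9] at h10
    nlinarith

end Vale.Agent.Lib.P262B
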