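import Vale.Agent.Lib.P262B.Round

/-!
# Steering along the rich coordinates

Solving a diagonally dominant system gives a small tilt of the half point which puts the rich
coordinates of the midpoint exactly at zero.
-/

open Finset

namespace Vale.Agent.Lib.P262B

set_option linter.unusedSectionVars false
set_option linter.unusedSimpArgs false
set_option linter.unusedVariables false

/-- A priori bound for a diagonally dominant system. -/
lemma dd_bound {κ : Type*} [Fintype κ] [DecidableEq κ] (N : κ → κ → ℝ) (hdiag : ∀ k, N k k = 1)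
    (hrow : ∀ k, ∑ l ∈ univ.erase k, |N k l| ≤ 1 / 2) (u g : κ → ℝ)
    (hu : ∀ k, ∑ l, N k l * u l = g k) (b : ℝ) (hb : ∀ k, |g k| ≤ b) (l : κ) : |u l| ≤ 2 * b := by
  obtain ⟨l₀, -, hl₀⟩ := Finset.exists_max_image univ (fun l => |u l|) ⟨l, mem_univ l⟩
  have h1 : ∑ l, N l₀ l * u l = u l₀ + ∑ l ∈ univ.erase l₀, N l₀ l * u l := by
    rw [← Finset.add_sum_erase univ _ (mem_univ l₀), hdiag, one_mul]
  have h2 : |∑ l ∈ univ.erase l₀, N l₀ l * u l| ≤ 1 / 2 * |u l₀| := by
    calc _ ≤ ∑ l ∈ univ.erase l₀, |N l₀ l * u l| := abs_sum_le_sum_abs _ _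
      _ ≤ ∑ l ∈ univ.erase l₀, |N l₀ l| * |u l₀| := by
          refine sum_le_sum fun l _ => ?_
          rw [abs_mul]
          exact mul_le_mul_of_nonneg_left (hl₀ l (mem_univ l)) (abs_nonneg _)
      _ = (∑ l ∈ univ.erase l₀, |N l₀ l|) * |u l₀| := by rw [sum_mul]
      _ ≤ _ := mul_le_mul_of_nonneg_right (hrow l₀) (abs_nonneg _)
  have h3 : u l₀ = g l₀ - ∑ l ∈ univ.erase l₀, N l₀ l * u l := by
    have := hu l₀
    rw [h1] at this
    linarith
  have h4 : |u l₀| ≤ b + 1 / 2 * |u l₀| := by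
    calc |u l₀| = |g l₀ - ∑ l ∈ univ.erase l₀, N l₀ l * u l| := by rw [← h3]
      _ ≤ |g l₀| + |∑ l ∈ univ.erase l₀, N l₀ l * u l| := abs_sub _ _
      _ ≤ _ := add_le_add (hb l₀) h2
  have : |u l| ≤ |u l₀| := hl₀ l (mem_univ l)
  linarith

/-- Solving a diagonally dominant system. -/
lemma solve_dd {κ : Type*} [Fintype κ] [DecidableEq κ] (N : κ → κ → ℝ) (hdiag : ∀ k, N k k = 1)
    (hrow : ∀ k, ∑ l ∈ univ.erase k, |N k l| ≤ 1 / 2) (g : κ → ℝ) (b : ℝ) (hb : ∀ k, |g k| ≤ b) :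
    ∃ u : κ → ℝ, (∀ k, ∑ l, N k l * u l = g k) ∧ ∀ l, |u l| ≤ 2 * b := by
  let T : (κ → ℝ) →ₗ[ℝ] (κ → ℝ) := Matrix.mulVecLin (Matrix.of N)
  have hT : ∀ u k, T u k = ∑ l, N k l * u l := by
    intro u k
    simp [T, Matrix.mulVec, dotProduct]
  have hinj : Function.Injective T := by
    rw [← LinearMap.ker_eq_bot, LinearMap.ker_eq_bot']
    intro u hu
    funext l
    have h0 : ∀ k, ∑ l, N k l * u l = (0 : κ → ℝ) k := by
      intro k
      rw [← hT, hu]
    have := dd_bound N hdiag hrow u 0 h0 0 (by simp) l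
    simpa using this
  have hsurj := LinearMap.injective_iff_surjective.1 hinj
  obtain ⟨u, hu⟩ := hsurj g
  have hu' : ∀ k, ∑ l, N k l * u l = g k := fun k => by rw [← hT, hu]
  exact ⟨u, hu', fun l => dd_bound N hdiag hrow u g hu' b hb l⟩

variable {ι : Type*} [Fintype ι] [DecidableEq ι] {d : ℕ}

/-- Mixed second moment of a group. -/
def Mx (v : ι → Fin d → ℝ) (G : Finset ι) (j l : Fin d) : ℝ := ∑ i ∈ G, v i j * v i l

/-- The steering vector. -/
lemma steer (v : ι → Fin d → ℝ) (R : Finset ι) (H : Finset (Fin d)) (g : Fin d → ℝ)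
    (b c τ : ℝ) (hb : 0 ≤ b) (hc : 0 < c) (hτ0 : 0 ≤ τ)
    (hD : ∀ k ∈ H, c / 2 ≤ Mx v R k k)
    (hrow : ∀ k ∈ H, ∀ l ∈ H, k ≠ l → |Mx v R k l| / Mx v R l l ≤ τ)
    (hτ : (d : ℝ) * τ ≤ 1 / 2) (hg : ∀ k ∈ H, |g k| ≤ b) :
    ∃ (f : ι → ℝ) (w : Fin d → ℝ), (∀ k ∈ H, |w k| ≤ 4 * b / c) ∧
      (∀ j, ∑ i ∈ R, f i * v i j = ∑ k ∈ H, w k * Mx v R j k) ∧
      (∀ k ∈ H, ∑ i ∈ R, f i * v i k = g k) ∧
      ∑ i ∈ R, (f i) ^ 2 ≤ (d : ℝ) * (4 * b ^ 2 / c) := by
  classical
  have hHcard : (H.card : ℝ) ≤ d := by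
    have : H.card ≤ d := by
      simpa using Finset.card_le_univ H
    exact_mod_cast this
  have hDpos : ∀ k ∈ H, 0 < Mx v R k k := fun k hk => by
    have := hD k hk
    linarith
  let N : H → H → ℝ := fun k l => Mx v R k l / Mx v R l l
  have hdiag : ∀ k, N k k = 1 := fun k => div_self (hDpos k k.2).ne'
  have hrow' : ∀ k, ∑ l ∈ univ.erase k, |N k l| ≤ 1 / 2 := by
    intro k
    calc ∑ l ∈ univ.erase k, |N k l| ≤ ∑ l ∈ univ.erase k, τ := by
          refine sum_le_sum fun l hl => ?_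
          have hne : (k : Fin d) ≠ l := by
            intro h
            exact (Finset.mem_erase.1 hl).1 (Subtype.ext h.symm)
          have h2 := hrow k k.2 l l.2 hne
          simp only [N]
          rwa [abs_div, abs_of_pos (hDpos l l.2)]
      _ = ((univ.erase k).card : ℝ) * τ := by simp
      _ ≤ (d : ℝ) * τ := by
          refine mul_le_mul_of_nonneg_right ?_ hτ0
          have h3 : (univ.erase k).card ≤ Fintype.card H := by
            exact (Finset.card_le_univ _)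
          have h4 : Fintype.card H = H.card := Fintype.card_coe H
          have h5 : ((univ.erase k).card : ℝ) ≤ H.card := by
            rw [← h4]
            exact_mod_cast h3
          linarith
      _ ≤ 1 / 2 := hτ
  obtain ⟨u, hu1, hu2⟩ := solve_dd N hdiag hrow' (fun k => g k) b (fun k => hg k k.2)
  let w : Fin d → ℝ := fun k => if hk : k ∈ H then u ⟨k, hk⟩ / Mx v R k k else 0
  have hwH : ∀ k (hk : k ∈ H), w k = u ⟨k, hk⟩ / Mx v R k k := fun k hk => by simp [w, hk]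
  have hw : ∀ k ∈ H, |w k| ≤ 4 * b / c := by
    intro k hk
    rw [hwH k hk, abs_div, abs_of_pos (hDpos k hk)]
    have h1 := hu2 ⟨k, hk⟩
    have h2 := hD k hk
    rw [div_le_div_iff₀ (hDpos k hk) hc]
    have h3 : |u ⟨k, hk⟩| * c ≤ 2 * b * c := mul_le_mul_of_nonneg_right h1 hc.le
    have h4 : 2 * b * c ≤ 4 * b * Mx v R k k := by
      nlinarith
    linarith
  let f : ι → ℝ := fun i => ∑ k ∈ H, w k * v i k
  have hf : ∀ j, ∑ i ∈ R, f i * v i j = ∑ k ∈ H, w k * Mx v R j k := by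
    intro j
    simp only [f, Mx, Finset.sum_mul, Finset.mul_sum]
    rw [Finset.sum_comm]
    refine sum_congr rfl fun k _ => sum_congr rfl fun i _ => by ring
  have hsolve : ∀ k ∈ H, ∑ i ∈ R, f i * v i k = g k := by
    intro k hk
    rw [hf k]
    have h1 := hu1 ⟨k, hk⟩
    rw [← h1, ← Finset.sum_coe_sort H]
    refine sum_congr rfl fun l _ => ?_
    rw [hwH l l.2]
    simp only [N]
    ring
  refine ⟨f, w, hw, hf, hsolve, ?_⟩
  have hnorm : ∑ i ∈ R, (f i) ^ 2 = ∑ k ∈ H, w k * g k := by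
    calc ∑ i ∈ R, (f i) ^ 2 = ∑ i ∈ R, ∑ k ∈ H, w k * (f i * v i k) := by
          refine sum_congr rfl fun i _ => ?_
          rw [sq]
          conv_lhs => rw [show f i * f i = f i * ∑ k ∈ H, w k * v i k from rfl]
          rw [Finset.mul_sum]
          refine sum_congr rfl fun k _ => by ring
      _ = ∑ k ∈ H, w k * g k := by
          rw [Finset.sum_comm]
          refine sum_congr rfl fun k hk => ?_
          rw [← Finset.mul_sum, hsolve k hk]
  rw [hnorm]
  calc ∑ k ∈ H, w k * g k ≤ ∑ k ∈ H, (4 * b ^ 2 / c) := by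
        refine sum_le_sum fun k hk => ?_
        have h1 := hw k hk
        have h2 := hg k hk
        have h3 : w k * g k ≤ |w k| * |g k| := by
          rw [← abs_mul]
          exact le_abs_self _
        have h4 : |w k| * |g k| ≤ (4 * b / c) * b :=
          mul_le_mul h1 h2 (abs_nonneg _) (by positivity)
        have h5 : (4 * b / c) * b = 4 * b ^ 2 / c := by ring
        linarith
    _ = (H.card : ℝ) * (4 * b ^ 2 / c) := by simp
    _ ≤ _ := mul_le_mul_of_nonneg_right hHcard (by positivity)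

end Vale.Agent.Lib.P262B
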