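import Vale.Agent.Lib.P262B.Child

/-!
# Recursion along the halving tree
-/

open Finset

namespace Vale.Agent.Lib.P262B

set_option linter.unusedSectionVars false
set_option linter.unusedSimpArgs false
set_option linter.unusedVariables false

variable {ι : Type*} [Fintype ι] [DecidableEq ι] {d : ℕ}
variable {p : Par d} {v : ι → Fin d → ℝ}

lemma pm_split (L L' : Finset (Fin d)) (hsub : L ⊆ L') (i : ι) :
    pm v L' i = pm v L i + ∑ j ∈ L' \ L, (v i j) ^ 2 := by
  unfold pm
  rw [← Finset.sum_sdiff hsub]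
  ring

lemma sqrt_add_le' {a b : ℝ} (ha : 0 ≤ a) (hb : 0 ≤ b) :
    Real.sqrt (a + b) ≤ Real.sqrt a + Real.sqrt b := by
  refine Real.sqrt_le_iff.2 ⟨by positivity, ?_⟩
  have h1 := Real.sq_sqrt ha
  have h2 := Real.sq_sqrt hb
  nlinarith [Real.sqrt_nonneg a, Real.sqrt_nonneg b, mul_nonneg (Real.sqrt_nonneg a)
    (Real.sqrt_nonneg b)]

/-- Coordinates enter the low block. -/
lemma transition (hv : ∀ i, ∑ j, (v i j) ^ 2 ≤ 1) {L L' : Finset (Fin d)} {C : Finset ι} {e h' : ι}
    {z : Fin d → ℝ} (hsub : L ⊆ L') (hne : L ≠ L') (hmu : ∀ j ∈ L' \ L, mu v C j < p.Lam)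
    (he : e ∈ C) (htop' : Top v L' C h') (hz : EndP p v L C e z)
    (hbd : ∀ j ∈ L' \ L, |z j| ≤ p.amax) : EndP p v L' C h' z := by
  have hn1 : 1 ≤ (L' \ L).card := by
    refine Finset.card_pos.2 (Finset.sdiff_nonempty.2 ?_)
    intro h0
    exact hne (Finset.Subset.antisymm hsub h0)
  set n : ℝ := ((L' \ L).card : ℝ) with hn
  have hn1' : (1 : ℝ) ≤ n := by
    rw [hn]
    exact_mod_cast hn1
  have hcard : (L'.card : ℝ) = (L.card : ℝ) + n := by
    have := Finset.card_sdiff_add_card_eq_card hsub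
    rw [hn, add_comm]
    exact_mod_cast this.symm
  have hsq : sqs L' z ≤ sqs L z + n * p.amax ^ 2 := by
    unfold sqs
    rw [← Finset.sum_sdiff hsub]
    have h1 : ∑ j ∈ L' \ L, (z j) ^ 2 ≤ n * p.amax ^ 2 := by
      calc ∑ j ∈ L' \ L, (z j) ^ 2 ≤ ∑ j ∈ L' \ L, p.amax ^ 2 := by
            refine Finset.sum_le_sum fun j hj => ?_
            rw [← sq_abs]
            exact pow_le_pow_left₀ (abs_nonneg _) (hbd j hj) 2
        _ = n * p.amax ^ 2 := by simp [hn]
    linarith
  have hLamn : 0 ≤ n * p.Lam := mul_nonneg (by linarith) p.Lam_pos.le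
  have hEp : Ep v L' C h' ≤ Ep v L C e + n * p.Lam := by
    have h1 : Ep v L' C h' = ∑ i ∈ C, pm v L' i - pm v L' h' := by
      unfold Ep
      rw [← Finset.add_sum_erase C _ htop'.1]
      ring
    have h2 : Ep v L C e = ∑ i ∈ C, pm v L i - pm v L e := by
      unfold Ep
      rw [← Finset.add_sum_erase C _ he]
      ring
    have h3 : ∑ i ∈ C, pm v L' i = ∑ i ∈ C, pm v L i + ∑ j ∈ L' \ L, mu v C j := by
      simp only [pm_split (v := v) L L' hsub, Finset.sum_add_distrib, mu]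
      rw [Finset.sum_comm]
    have h4 : ∑ j ∈ L' \ L, mu v C j ≤ n * p.Lam := by
      calc ∑ j ∈ L' \ L, mu v C j ≤ ∑ j ∈ L' \ L, p.Lam :=
            Finset.sum_le_sum fun j hj => (hmu j hj).le
        _ = n * p.Lam := by simp [hn]
    have h5 : pm v L e ≤ pm v L' e := by
      rw [pm_split (v := v) L L' hsub e]
      have : 0 ≤ ∑ j ∈ L' \ L, (v e j) ^ 2 := Finset.sum_nonneg fun _ _ => sq_nonneg _
      linarith
    have h6 := htop'.2 e he
    rw [h1, h2, h3]
    linarith
  have hEp0 : 0 ≤ Ep v L C e := Finset.sum_nonneg fun _ _ => pm_nonneg L _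
  have hEp'0 : 0 ≤ Ep v L' C h' := Finset.sum_nonneg fun _ _ => pm_nonneg L' _
  have hA := p.A_nonneg
  have hγ := p.γ_nonneg
  have hsL := Real.sqrt_nonneg p.Lam
  -- upper bound for the new slack
  have hnew : XiG p v L' C h' ≤ p.A * Ep v L C e + p.A * (n * p.Lam) + 4 + p.γ
      + Real.sqrt (Ep v L C e) + n * Real.sqrt p.Lam := by
    unfold XiG Xi
    rw [Real.sq_sqrt hEp'0]
    set r := Real.sqrt (pm v L' h') with hr
    have hr0 : 0 ≤ r := Real.sqrt_nonneg _
    have hr1 : r ≤ 1 := sqrt_pm_le hv L' h'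
    set S := Sp v L' C h' with hS
    have hS0 : 0 ≤ S := nrm_nonneg _ _
    set a := Real.sqrt (Ep v L' C h') with ha
    have ha0 : 0 ≤ a := Real.sqrt_nonneg _
    have h1 : r * min S (4 * r) ≤ 4 := by
      have h2 : min S (4 * r) ≤ 4 * r := min_le_right _ _
      have h3 : r * min S (4 * r) ≤ r * (4 * r) := mul_le_mul_of_nonneg_left h2 hr0
      nlinarith
    have h2 : p.γ * r * min a r ≤ p.γ := by
      have h3 : min a r ≤ 1 := (min_le_right _ _).trans hr1
      have h4 : 0 ≤ min a r := le_min ha0 hr0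
      have h5 : r * min a r ≤ 1 * 1 := mul_le_mul hr1 h3 h4 zero_le_one
      calc p.γ * r * min a r = p.γ * (r * min a r) := by ring
        _ ≤ p.γ * (1 * 1) := mul_le_mul_of_nonneg_left h5 hγ
        _ = p.γ := by ring
    have h3 : a ≤ Real.sqrt (Ep v L C e) + n * Real.sqrt p.Lam := by
      have h4 : a ≤ Real.sqrt (Ep v L C e + n * p.Lam) := Real.sqrt_le_sqrt hEp
      have h5 := sqrt_add_le' hEp0 hLamn
      have h6 : Real.sqrt (n * p.Lam) ≤ n * Real.sqrt p.Lam := by
        rw [Real.sqrt_mul (by linarith)]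
        refine mul_le_mul_of_nonneg_right ?_ hsL
        refine Real.sqrt_le_iff.2 ⟨by linarith, ?_⟩
        nlinarith
      linarith
    have h4 : p.A * Ep v L' C h' ≤ p.A * (Ep v L C e + n * p.Lam) :=
      mul_le_mul_of_nonneg_left hEp hA
    nlinarith
  -- lower bound for the old slack
  have hold : p.A * Ep v L C e + Real.sqrt (Ep v L C e) ≤ XiG p v L C e := by
    unfold XiG Xi
    rw [Real.sq_sqrt hEp0]
    have hr0 : 0 ≤ Real.sqrt (pm v L e) := Real.sqrt_nonneg _
    have hS0 : 0 ≤ Sp v L C e := nrm_nonneg _ _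
    have ha0 : 0 ≤ Real.sqrt (Ep v L C e) := Real.sqrt_nonneg _
    have h1 : 0 ≤ Real.sqrt (pm v L e) * min (Sp v L C e) (4 * Real.sqrt (pm v L e)) :=
      mul_nonneg hr0 (le_min hS0 (by linarith))
    have h2 : 0 ≤ p.γ * Real.sqrt (pm v L e) * min (Real.sqrt (Ep v L C e)) (Real.sqrt (pm v L e)) :=
      mul_nonneg (mul_nonneg hγ hr0) (le_min ha0 hr0)
    linarith
  have hJ := p.J_ge
  have hJn : n * (p.amax ^ 2 + p.A * p.Lam + Real.sqrt p.Lam + 4 + p.γ) ≤ n * p.J :=
    mul_le_mul_of_nonneg_left hJ (by linarith)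
  have h4γ : 4 + p.γ ≤ n * (4 + p.γ) := by nlinarith
  unfold EndP at hz ⊢
  rw [hcard]
  nlinarith

/-- The invariant on the block after the coordinates entering it are added. -/
lemma pot_child (hv : ∀ i, ∑ j, (v i j) ^ 2 ≤ 1) {C : Finset ι} {L : Finset (Fin d)} {e : ι}
    {z₁ z₂ : Fin d → ℝ} (hsub : L ⊆ Low v p.Lam C) (htop : Top v L C e)
    (h1 : EndP p v L C e z₁) (h2 : EndP p v L C e z₂)
    (hb1 : ∀ j ∈ Low v p.Lam C \ L, |z₁ j| ≤ p.amax)
    (hb2 : ∀ j ∈ Low v p.Lam C \ L, |z₂ j| ≤ p.amax) :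
    ∃ h', Top v (Low v p.Lam C) C h' ∧ EndP p v (Low v p.Lam C) C h' z₁ ∧
      EndP p v (Low v p.Lam C) C h' z₂ := by
  by_cases hne : L = Low v p.Lam C
  · rw [← hne]
    exact ⟨e, htop, h1, h2⟩
  · obtain ⟨h', hh'mem, hh'max⟩ := Finset.exists_max_image C (pm v (Low v p.Lam C)) ⟨e, htop.1⟩
    have htop' : Top v (Low v p.Lam C) C h' := ⟨hh'mem, hh'max⟩
    have hmu : ∀ j ∈ Low v p.Lam C \ L, mu v C j < p.Lam := by
      intro j hj
      have := (Finset.mem_sdiff.1 hj).1
      simpa [Low] using this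
    exact ⟨h', htop', transition hv hsub hne hmu htop.1 htop' h1 hb1,
      transition hv hsub hne hmu htop.1 htop' h2 hb2⟩

/-- One step of the recursion. -/
theorem node_step (hv : ∀ i, ∑ j, (v i j) ^ 2 ≤ 1) {G : Finset ι} {x y : Fin d → ℝ}
    (inv : NodeInv p v G x y) (hcard : 2 ≤ G.card) :
    ∃ (G₁ G₂ : Finset ι) (m : Fin d → ℝ), Disjoint G₁ G₂ ∧ G₁ ∪ G₂ = G ∧ G₁.Nonempty ∧ G₂.Nonempty ∧
      m = x + sg v G₁ ∧ NodeInv p v G₁ x m ∧ NodeInv p v G₂ m y := by
  classical
  obtain ⟨h, htop, hxP, hyP⟩ := inv.pot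
  obtain ⟨h₂, ea, eb, R, R₁, R₂, D, m, sd⟩ :=
    exists_split hv p inv.hy inv.orth inv.ax inv.ay htop hxP hyP hcard
  have hR₁ : R₁ ⊆ R := by
    rw [← sd.hU]
    exact Finset.subset_union_left
  have hR₂ : R₂ ⊆ R := by
    rw [← sd.hU]
    exact Finset.subset_union_right
  have ch₁ : ChildOf h h₂ R D ea eb R₁ 1 := ⟨sd.he, hR₁, Or.inl rfl, fun w => by
    rw [sd.hs1 w, one_mul]⟩
  have ch₂ : ChildOf h h₂ R D eb ea R₂ (-1) := ⟨by
    rcases sd.he with ⟨h1, h2⟩ | ⟨h1, h2⟩
    · exact Or.inr ⟨h2, h1⟩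
    · exact Or.inl ⟨h2, h1⟩, hR₂, Or.inr rfl, fun w => by
    rw [sd.hs2 w]
    ring⟩
  have hL₁ : Low v p.Lam G ⊆ Low v p.Lam (insert ea R₁) := by
    intro j hj
    simp only [Low, Finset.mem_filter, Finset.mem_univ, true_and] at hj ⊢
    exact lt_of_le_of_lt (ChildOf.mu_mono (ChildOf.sub_G sd ch₁) j) hj
  have hL₂ : Low v p.Lam G ⊆ Low v p.Lam (insert eb R₂) := by
    intro j hj
    simp only [Low, Finset.mem_filter, Finset.mem_univ, true_and] at hj ⊢
    exact lt_of_le_of_lt (ChildOf.mu_mono (ChildOf.sub_G sd ch₂) j) hj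
  have hnl : ∀ {C : Finset ι} {j : Fin d}, j ∈ Low v p.Lam C \ Low v p.Lam G → p.Lam ≤ mu v G j := by
    intro C j hj
    have := (Finset.mem_sdiff.1 hj).2
    simpa [Low] using this
  have hne : ea ≠ eb := by
    have h1 := ChildOf.h_ne sd
    rcases sd.he with ⟨h2, h3⟩ | ⟨h2, h3⟩
    · rw [h2, h3]
      exact h1
    · rw [h2, h3]
      exact h1.symm
  have heaR₂ : ea ∉ insert eb R₂ := by
    intro h0
    rcases Finset.mem_insert.1 h0 with h1 | h1
    · exact hne h1
    · exact ChildOf.e_notin sd ch₁ (hR₂ h1)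
  refine ⟨insert ea R₁, insert eb R₂, m, ?_, ?_, ⟨ea, Finset.mem_insert_self _ _⟩,
    ⟨eb, Finset.mem_insert_self _ _⟩, ?_, ?_, ?_⟩
  · rw [Finset.disjoint_left]
    intro i hi hi'
    rcases Finset.mem_insert.1 hi with rfl | hi1
    · exact heaR₂ hi'
    · rcases Finset.mem_insert.1 hi' with rfl | hi2
      · exact ChildOf.e_notin sd ch₂ (hR₁ hi1)
      · exact (Finset.disjoint_left.1 sd.hdisj) hi1 hi2
  · -- union
    rw [sd.hG]
    ext i
    have hU := sd.hU
    simp only [Finset.mem_union, Finset.mem_insert]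
    have h1 : i ∈ R ↔ i ∈ R₁ ∨ i ∈ R₂ := by
      rw [← hU]
      simp
    rcases sd.he with ⟨h2, h3⟩ | ⟨h2, h3⟩ <;> rw [h2, h3, h1] <;> tauto
  · funext j
    have h1 : sg v (insert ea R₁) j = v ea j + ∑ i ∈ R₁, v i j :=
      ChildOf.sum_C sd ch₁ (fun i => v i j)
    simp only [Pi.add_apply]
    rw [h1, sd.hm j]
    ring
  · refine ⟨?_, ChildOf.orth hv sd ch₁ inv.orth, ChildOf.ainv_old sd ch₁ inv.ax,
      ChildOf.ainv_mid hv inv.ax inv.ay sd ch₁, ?_⟩
    · funext j
      have h1 : sg v (insert ea R₁) j = v ea j + ∑ i ∈ R₁, v i j :=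
        ChildOf.sum_C sd ch₁ (fun i => v i j)
      simp only [Pi.add_apply]
      rw [h1, sd.hm j]
      ring
    · exact pot_child hv hL₁ (ChildOf.top sd ch₁) (ChildOf.endP_old sd ch₁ hxP)
        (ChildOf.endP_mid sd ch₁ hxP hyP)
        (fun j hj => ChildOf.abs_le_amax inv.ax (hnl hj))
        (fun j hj => ChildOf.mid_le_amax inv.ax inv.ay sd (hnl hj))
  · refine ⟨?_, ChildOf.orth hv sd ch₂ inv.orth, ChildOf.ainv_mid hv inv.ax inv.ay sd ch₂,
      ChildOf.ainv_old sd ch₂ inv.ay, ?_⟩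
    · funext j
      have h1 : sg v (insert eb R₂) j = v eb j + ∑ i ∈ R₂, v i j :=
        ChildOf.sum_C sd ch₂ (fun i => v i j)
      simp only [Pi.add_apply]
      rw [h1, sd.hy2 j]
      ring
    · exact pot_child hv hL₂ (ChildOf.top sd ch₂) (ChildOf.endP_mid sd ch₂ hxP hyP)
        (ChildOf.endP_old sd ch₂ hyP)
        (fun j hj => ChildOf.mid_le_amax inv.ax inv.ay sd (hnl hj))
        (fun j hj => ChildOf.abs_le_amax inv.ay (hnl hj))

/-- All partial sums along the list, started at `x`, have squared length at most `Bd`. -/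
def CList (v : ι → Fin d → ℝ) (Bd : ℝ) : (Fin d → ℝ) → List ι → Prop
  | x, [] => sqs univ x ≤ Bd
  | x, i :: l => sqs univ x ≤ Bd ∧ CList v Bd (x + v i) l

lemma CList.append {Bd : ℝ} :
    ∀ {x : Fin d → ℝ} {l₁ l₂ : List ι}, CList v Bd x l₁ →
      CList v Bd (x + (l₁.map v).sum) l₂ → CList v Bd x (l₁ ++ l₂)
  | _, [], _, _, h₂ => by simpa using h₂
  | _, _ :: _, _, h₁, h₂ =>
      ⟨h₁.1, CList.append h₁.2 (by simpa [add_assoc] using h₂)⟩

lemma CList.initSeg {Bd : ℝ} :
    ∀ {x : Fin d → ℝ} {l : List ι}, CList v Bd x l → ∀ k : ℕ,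
      sqs univ (x + ((l.take k).map v).sum) ≤ Bd
  | _, [], h, _ => by simpa [CList] using h
  | _, _ :: _, h, 0 => by simpa using h.1
  | _, _ :: _, h, k + 1 => by simpa [add_assoc] using CList.initSeg h.2 k

/-- The group `G` can be ordered so that all partial sums from `x` are controlled. -/
def CGood (v : ι → Fin d → ℝ) (Bd : ℝ) (x : Fin d → ℝ) (G : Finset ι) : Prop :=
  ∃ l : List ι, l.Nodup ∧ l.toFinset = G ∧ CList v Bd x l

lemma sum_eq_sg (G : Finset ι) : ∑ i ∈ G, v i = sg v G := by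
  funext j
  simp [sg, Finset.sum_apply]

lemma CGood.union {Bd : ℝ} {x : Fin d → ℝ} {G₁ G₂ : Finset ι} (hd : Disjoint G₁ G₂)
    (h₁ : CGood v Bd x G₁) (h₂ : CGood v Bd (x + sg v G₁) G₂) : CGood v Bd x (G₁ ∪ G₂) := by
  obtain ⟨l₁, n₁, e₁, g₁⟩ := h₁
  obtain ⟨l₂, n₂, e₂, g₂⟩ := h₂
  refine ⟨l₁ ++ l₂, ?_, ?_, ?_⟩
  · refine List.nodup_append.2 ⟨n₁, n₂, ?_⟩
    intro a ha b hb hab
    subst hab
    have h1 : a ∈ G₁ := by
      rw [← e₁]
      simpa using ha
    have h2 : a ∈ G₂ := by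
      rw [← e₂]
      simpa using hb
    exact (Finset.disjoint_left.1 hd h1) h2
  · rw [List.toFinset_append, e₁, e₂]
  · refine g₁.append ?_
    have : (l₁.map v).sum = sg v G₁ := by
      rw [← sum_eq_sg, ← e₁, List.sum_toFinset _ n₁]
    rwa [this]

/-- Every end of a node has bounded total length. -/
lemma end_bound {G : Finset ι} {h : ι} {z : Fin d → ℝ} (hA : AInv p v G z)
    (hP : EndP p v (Low v p.Lam G) G h z) : sqs univ z ≤ p.B + d * p.amax ^ 2 := by
  have h1 := sqs_le_of_EndP hP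
  have h2 : sqs univ z = sqs (Low v p.Lam G) z + ∑ j ∈ univ \ Low v p.Lam G, (z j) ^ 2 := by
    unfold sqs
    rw [← Finset.sum_sdiff (Finset.subset_univ (Low v p.Lam G))]
    ring
  have h3 : ∑ j ∈ univ \ Low v p.Lam G, (z j) ^ 2 ≤ ∑ j ∈ univ \ Low v p.Lam G, p.amax ^ 2 := by
    refine Finset.sum_le_sum fun j hj => ?_
    have h4 : p.Lam ≤ mu v G j := by
      have := (Finset.mem_sdiff.1 hj).2
      simpa [Low] using this
    rw [← sq_abs]
    exact pow_le_pow_left₀ (abs_nonneg _) (ChildOf.abs_le_amax hA h4) 2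
  have h4 : ∑ j ∈ univ \ Low v p.Lam G, p.amax ^ 2 ≤ d * p.amax ^ 2 := by
    rw [Finset.sum_const, nsmul_eq_mul]
    refine mul_le_mul_of_nonneg_right ?_ (sq_nonneg _)
    have : (univ \ Low v p.Lam G).card ≤ d := by
      simpa using Finset.card_le_univ (univ \ Low v p.Lam G)
    exact_mod_cast this
  linarith

/-- The recursion. -/
theorem tree (hv : ∀ i, ∑ j, (v i j) ^ 2 ≤ 1) {Bd : ℝ} (hBd : p.B + d * p.amax ^ 2 ≤ Bd) :
    ∀ (n : ℕ) (G : Finset ι) (x y : Fin d → ℝ), G.card = n → G.Nonempty → NodeInv p v G x y →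
      CGood v Bd x G := by
  intro n
  induction n using Nat.strong_induction_on with
  | _ n ih =>
    intro G x y hcard hne inv
    by_cases h2 : 2 ≤ G.card
    · obtain ⟨G₁, G₂, m, hd, hU, hne₁, hne₂, hm, inv₁, inv₂⟩ := node_step hv inv h2
      have hc : G.card = G₁.card + G₂.card := by
        rw [← hU, Finset.card_union_of_disjoint hd]
      have hp₁ : 0 < G₁.card := Finset.card_pos.2 hne₁
      have hp₂ : 0 < G₂.card := Finset.card_pos.2 hne₂
      have g₁ := ih G₁.card (by omega) G₁ x m rfl hne₁ inv₁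
      have g₂ := ih G₂.card (by omega) G₂ m y rfl hne₂ inv₂
      rw [← hU]
      refine CGood.union hd g₁ ?_
      rw [← hm]
      exact g₂
    · have h1 : G.card = 1 := by
        have := Finset.card_pos.2 hne
        omega
      obtain ⟨i, rfl⟩ := Finset.card_eq_one.1 h1
      obtain ⟨h, htop, hxP, hyP⟩ := inv.pot
      refine ⟨[i], List.nodup_singleton i, by simp, ?_, ?_⟩
      · exact (end_bound inv.ax hxP).trans hBd
      · have hy' : x + v i = y := by
          rw [inv.hy]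
          congr 1
          funext j
          simp [sg]
        rw [hy']
        exact (end_bound inv.ay hyP).trans hBd

/-- The root. -/
lemma root_inv (hv : ∀ i, ∑ j, (v i j) ^ 2 ≤ 1) {G : Finset ι} (hne : G.Nonempty)
    (h0 : sg v G = 0) (horth : ∀ j l, j ≠ l → Mx v G j l = 0) : NodeInv p v G 0 0 := by
  have hβ := p.β_pos
  have hA0 : AInv p v G 0 := by
    intro j _
    refine ⟨0, Or.inl rfl, ?_⟩
    simp only [Pi.zero_apply, abs_zero, Nat.cast_zero, mul_zero, add_zero]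
    exact hβ.le
  refine ⟨by simp [h0], ?_, hA0, hA0, ?_⟩
  · intro j l hjl _ _
    rw [horth j l hjl, abs_zero]
    have h1 := p.Δ_nonneg
    have h2 := p.δ_nonneg
    positivity
  · set L := Low v p.Lam G with hL
    obtain ⟨h, hmem, hmax⟩ := Finset.exists_max_image G (pm v L) hne
    have htop : Top v L G h := ⟨hmem, hmax⟩
    have hroot : EndP p v L G h 0 := by
      unfold EndP
      have hs : sqs L (0 : Fin d → ℝ) = 0 := by
        simp [sqs]
      rw [hs, zero_add]
      have hcardL : (L.card : ℝ) ≤ d := by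
        have : L.card ≤ d := by
          simpa using Finset.card_le_univ L
        exact_mod_cast this
      have hcardnn : (0 : ℝ) ≤ L.card := Nat.cast_nonneg _
      have hdnn : (0 : ℝ) ≤ d := Nat.cast_nonneg _
      have hE : Ep v L G h ≤ d * p.Lam := by
        have h1 : Ep v L G h ≤ ∑ i ∈ G, pm v L i :=
          Finset.sum_le_sum_of_subset_of_nonneg (Finset.erase_subset _ _)
            (fun _ _ _ => pm_nonneg L _)
        have h2 : ∑ i ∈ G, pm v L i = ∑ j ∈ L, mu v G j := by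
          simp only [pm, mu]
          rw [Finset.sum_comm]
        have h3 : ∑ j ∈ L, mu v G j ≤ ∑ j ∈ L, p.Lam := by
          refine Finset.sum_le_sum fun j hj => ?_
          have : mu v G j < p.Lam := by
            simpa [hL, Low] using hj
          exact this.le
        have h4 : ∑ j ∈ L, p.Lam = (L.card : ℝ) * p.Lam := by simp
        have h5 : (L.card : ℝ) * p.Lam ≤ d * p.Lam :=
          mul_le_mul_of_nonneg_right hcardL p.Lam_pos.le
        linarith
      have hE0 : 0 ≤ Ep v L G h := Finset.sum_nonneg fun _ _ => pm_nonneg L _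
      have hγ := p.γ_nonneg
      have hA := p.A_nonneg
      have hsL := Real.sqrt_nonneg p.Lam
      have hXi : XiG p v L G h ≤ p.A * (d * p.Lam) + 4 + p.γ + d * Real.sqrt p.Lam := by
        unfold XiG Xi
        rw [Real.sq_sqrt hE0]
        set r := Real.sqrt (pm v L h) with hr
        have hr0 : 0 ≤ r := Real.sqrt_nonneg _
        have hr1 : r ≤ 1 := sqrt_pm_le hv L h
        set S := Sp v L G h with hS
        have hS0 : 0 ≤ S := nrm_nonneg _ _
        set a := Real.sqrt (Ep v L G h) with ha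
        have ha0 : 0 ≤ a := Real.sqrt_nonneg _
        have h1 : r * min S (4 * r) ≤ 4 := by
          have h2 : min S (4 * r) ≤ 4 * r := min_le_right _ _
          have h3 : r * min S (4 * r) ≤ r * (4 * r) := mul_le_mul_of_nonneg_left h2 hr0
          nlinarith
        have h2 : p.γ * r * min a r ≤ p.γ := by
          have h3 : min a r ≤ 1 := (min_le_right _ _).trans hr1
          have h4 : 0 ≤ min a r := le_min ha0 hr0
          have h5 : r * min a r ≤ 1 * 1 := mul_le_mul hr1 h3 h4 zero_le_one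
          calc p.γ * r * min a r = p.γ * (r * min a r) := by ring
            _ ≤ p.γ * (1 * 1) := mul_le_mul_of_nonneg_left h5 hγ
            _ = p.γ := by ring
        have h3 : a ≤ d * Real.sqrt p.Lam := by
          have h4 : a ≤ Real.sqrt (d * p.Lam) := Real.sqrt_le_sqrt hE
          rw [Real.sqrt_mul hdnn] at h4
          refine h4.trans (mul_le_mul_of_nonneg_right ?_ hsL)
          rcases Nat.eq_zero_or_pos d with h5 | h5
          · simp [h5]
          · have h6 : (1 : ℝ) ≤ d := by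
              exact_mod_cast h5
            refine Real.sqrt_le_iff.2 ⟨hdnn, ?_⟩
            nlinarith
        have h4 : p.A * Ep v L G h ≤ p.A * (d * p.Lam) := mul_le_mul_of_nonneg_left hE hA
        linarith
      have hJ := p.J_ge
      have hJ0 := p.J_nonneg
      have h6 : p.J * ((d : ℝ) - (L.card : ℝ)) ≤ p.J * d :=
        mul_le_mul_of_nonneg_left (by linarith) hJ0
      have h7 : (d : ℝ) * (p.A * p.Lam + Real.sqrt p.Lam) ≤ d * p.J :=
        mul_le_mul_of_nonneg_left (by nlinarith [sq_nonneg p.amax]) hdnn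
      have h8 : 4 + p.γ ≤ p.J := by
        nlinarith [sq_nonneg p.amax, mul_nonneg hA p.Lam_pos.le]
      have hB := p.hB
      nlinarith
    exact ⟨h, htop, hroot, hroot⟩

/-- The main theorem in coordinates. -/
theorem coord_main (p : Par d) (v : ι → Fin d → ℝ) (hv : ∀ i, ∑ j, (v i j) ^ 2 ≤ 1)
    [Nonempty ι] (h0 : sg v univ = 0) (horth : ∀ j l, j ≠ l → Mx v univ j l = 0) :
    ∃ l : List ι, l.Nodup ∧ l.toFinset = univ ∧
      ∀ k : ℕ, sqs univ ((l.take k).map v).sum ≤ p.B + d * p.amax ^ 2 := by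
  have hne : (univ : Finset ι).Nonempty := Finset.univ_nonempty
  obtain ⟨l, n, e, g⟩ := tree (p := p) hv le_rfl _ univ 0 0 rfl hne (root_inv hv hne h0 horth)
  refine ⟨l, n, e, fun k => ?_⟩
  have := g.initSeg k
  simpa using this

end Vale.Agent.Lib.P262B
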