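import Mathlib

/-!
# Linear walks in the cube

Kernel walks and a freezing walk with a small Rayleigh quotient.
-/

open Finset
open scoped InnerProductSpace

namespace Vale.Agent.Lib.P262B

set_option linter.unusedSectionVars false
set_option linter.unusedSimpArgs false

variable {ι : Type*} [Fintype ι] [DecidableEq ι]

/-- Coordinatewise dot product. -/
def dot (a t : ι → ℝ) : ℝ := ∑ i, a i * t i

omit [DecidableEq ι] in
lemma dot_add_right (a s t : ι → ℝ) : dot a (s + t) = dot a s + dot a t := by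
  simp [dot, mul_add, Finset.sum_add_distrib]

omit [DecidableEq ι] in
lemma dot_sub_right (a s t : ι → ℝ) : dot a (s - t) = dot a s - dot a t := by
  simp [dot, mul_sub, Finset.sum_sub_distrib]

omit [DecidableEq ι] in
lemma dot_smul_right (a t : ι → ℝ) (c : ℝ) : dot a (c • t) = c * dot a t := by
  simp only [dot, Pi.smul_apply, smul_eq_mul, Finset.mul_sum]
  exact Finset.sum_congr rfl fun i _ => by ring

/-- The coordinates strictly inside the unit interval. -/
noncomputable def frac (t : ι → ℝ) : Finset ι := univ.filter fun i => 0 < t i ∧ t i < 1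

/-- The unit cube. -/
def Box (t : ι → ℝ) : Prop := ∀ i, 0 ≤ t i ∧ t i ≤ 1

omit [DecidableEq ι] in
lemma mem_frac {t : ι → ℝ} {i : ι} : i ∈ frac t ↔ 0 < t i ∧ t i < 1 := by
  simp [frac]

/-- In a subspace of codimension at most `F.card`, some nonzero vector has a small Rayleigh
quotient for the quadratic form given by the rows `b`. -/
lemma exists_small_rayleigh {ρ : Type*} [Fintype ρ] (F : Finset (ι → ℝ)) (b : ρ → ι → ℝ) (k : ℕ)
    (hk : 0 < k) (hcard : F.card + k ≤ Fintype.card ι) :
    ∃ w : ι → ℝ, w ≠ 0 ∧ (∀ φ ∈ F, dot φ w = 0) ∧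
      (k : ℝ) * ∑ r, (dot (b r) w) ^ 2 ≤ (∑ r, ∑ i, (b r i) ^ 2) * ∑ i, (w i) ^ 2 := by
  classical
  let L : EuclideanSpace ℝ ι →ₗ[ℝ] (F → ℝ) :=
    { toFun := fun x φ => ∑ i, φ.1 i * x.ofLp i
      map_add' := by
        intro x y; funext φ
        simp only [WithLp.ofLp_add, Pi.add_apply, mul_add, Finset.sum_add_distrib]
      map_smul' := by
        intro c x; funext φ
        simp only [WithLp.ofLp_smul, Pi.smul_apply, smul_eq_mul, RingHom.id_apply, Finset.mul_sum]
        exact Finset.sum_congr rfl fun i _ => by ring }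
  have hrank := LinearMap.finrank_range_add_finrank_ker L
  have hrange : Module.finrank ℝ (LinearMap.range L) ≤ F.card := by
    calc Module.finrank ℝ (LinearMap.range L) ≤ Module.finrank ℝ (F → ℝ) :=
          Submodule.finrank_le _
      _ = F.card := by simp
  have hdim : Module.finrank ℝ (EuclideanSpace ℝ ι) = Fintype.card ι := finrank_euclideanSpace
  have hker : k ≤ Module.finrank ℝ (LinearMap.ker L) := by omega
  let K := Module.finrank ℝ (LinearMap.ker L)
  have hKpos : 0 < K := lt_of_lt_of_le hk hker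
  let B := stdOrthonormalBasis ℝ (LinearMap.ker L)
  let e : Fin K → EuclideanSpace ℝ ι := fun l => (B l : EuclideanSpace ℝ ι)
  have he : Orthonormal ℝ e :=
    B.orthonormal.comp_linearIsometry (LinearMap.ker L).subtypeₗᵢ
  have hrow : ∀ r, ∑ l, (dot (b r) (fun i => e l i)) ^ 2 ≤ ∑ i, (b r i) ^ 2 := by
    intro r
    let x : EuclideanSpace ℝ ι := WithLp.toLp 2 (b r)
    have hb := he.sum_inner_products_le (x := x) (s := Finset.univ)
    have h1 : ‖x‖ ^ 2 = ∑ i, (b r i) ^ 2 := by
      rw [EuclideanSpace.real_norm_sq_eq]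
    rw [h1] at hb
    refine le_trans (le_of_eq ?_) hb
    refine Finset.sum_congr rfl fun l _ => ?_
    have h2 : ⟪e l, x⟫_ℝ = dot (b r) (fun i => e l i) := by
      simp only [PiLp.inner_apply, dot, x]
      refine Finset.sum_congr rfl fun i _ => ?_
      simp [mul_comm]
    rw [h2, Real.norm_eq_abs, sq_abs]
  have htotal : ∑ l, ∑ r, (dot (b r) (fun i => e l i)) ^ 2 ≤ ∑ r, ∑ i, (b r i) ^ 2 := by
    rw [Finset.sum_comm]
    exact Finset.sum_le_sum fun r _ => hrow r
  have hex : ∃ l, (K : ℝ) * ∑ r, (dot (b r) (fun i => e l i)) ^ 2 ≤ ∑ r, ∑ i, (b r i) ^ 2 := by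
    by_contra hcon
    push Not at hcon
    have hne : (Finset.univ : Finset (Fin K)).Nonempty :=
      ⟨⟨0, hKpos⟩, Finset.mem_univ _⟩
    have h2 : ∑ _l : Fin K, (∑ r, ∑ i, (b r i) ^ 2)
        < ∑ l, (K : ℝ) * ∑ r, (dot (b r) (fun i => e l i)) ^ 2 :=
      Finset.sum_lt_sum_of_nonempty hne fun l _ => hcon l
    have hKr : (0 : ℝ) < K := by exact_mod_cast hKpos
    rw [← Finset.mul_sum, Finset.sum_const, Finset.card_univ, Fintype.card_fin, nsmul_eq_mul] at h2
    have h3 := mul_le_mul_of_nonneg_left htotal hKr.le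
    linarith
  obtain ⟨l, hl⟩ := hex
  refine ⟨fun i => e l i, ?_, ?_, ?_⟩
  · intro h0
    have h1 : ‖e l‖ = 1 := he.1 l
    have h2 : e l = 0 := by
      ext i
      exact congrFun h0 i
    rw [h2, norm_zero] at h1
    exact zero_ne_one h1
  · intro φ hφ
    have hmem : e l ∈ LinearMap.ker L := (B l).2
    have h1 : L (e l) = 0 := hmem
    exact congrFun h1 ⟨φ, hφ⟩
  · have h1 : ∑ i, (e l i) ^ 2 = 1 := by
      have h2 : ‖e l‖ = 1 := he.1 l
      have h3 := EuclideanSpace.real_norm_sq_eq (e l)
      rw [h2] at h3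
      simpa using h3.symm
    rw [h1, mul_one]
    have hkK : (k : ℝ) ≤ K := by exact_mod_cast hker
    have hnn : 0 ≤ ∑ r, (dot (b r) (fun i => e l i)) ^ 2 :=
      Finset.sum_nonneg fun _ _ => sq_nonneg _
    calc (k : ℝ) * ∑ r, (dot (b r) (fun i => e l i)) ^ 2
        ≤ K * ∑ r, (dot (b r) (fun i => e l i)) ^ 2 := mul_le_mul_of_nonneg_right hkK hnn
      _ ≤ _ := hl

/-- Moving along a line until the first of finitely many affine constraints becomes tight. -/
lemma line_search {κ : Type*} [Fintype κ] (α β : κ → ℝ)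
    (hpos : ∀ k, β k < 0 → 0 < α k) (hnn : ∀ k, 0 ≤ α k) (hex : ∃ k, β k < 0) :
    ∃ s : ℝ, 0 < s ∧ (∀ k, 0 ≤ α k + s * β k) ∧ ∃ k, β k < 0 ∧ α k + s * β k = 0 := by
  classical
  obtain ⟨k₁, hk₁⟩ := hex
  let T : Finset κ := univ.filter fun k => β k < 0
  have hT : T.Nonempty := ⟨k₁, by simp [T, hk₁]⟩
  obtain ⟨k₀, hk₀, hmin⟩ := T.exists_min_image (fun k => α k / (- β k)) hT
  have hβ₀ : β k₀ < 0 := by simpa [T] using hk₀
  have hα₀ := hpos k₀ hβ₀
  have hneg : 0 < - β k₀ := by linarith
  refine ⟨α k₀ / (- β k₀), div_pos hα₀ hneg, ?_, k₀, hβ₀, ?_⟩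
  · intro k
    by_cases hk : β k < 0
    · have hm := hmin k (by simp [T, hk])
      have hnegk : 0 < - β k := by linarith
      have h1 : α k₀ / (- β k₀) * (- β k) ≤ α k := by
        rwa [le_div_iff₀ hnegk] at hm
      nlinarith
    · have h1 : 0 ≤ β k := not_lt.1 hk
      have h2 := hnn k
      have h3 : 0 ≤ α k₀ / (- β k₀) * β k := mul_nonneg (div_pos hα₀ hneg).le h1
      linarith
  · have hne : - β k₀ ≠ 0 := ne_of_gt hneg
    have h1 : α k₀ / (- β k₀) * (- β k₀) = α k₀ := div_mul_cancel₀ _ hne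
    have h2 : α k₀ / (- β k₀) * β k₀ = - (α k₀ / (- β k₀) * (- β k₀)) := by ring
    rw [h2, h1]
    ring

omit [DecidableEq ι] in
lemma box_of_constraints {t w : ι → ℝ} {s : ℝ}
    (h : ∀ k : ι ⊕ ι, 0 ≤ (Sum.elim t (fun i => 1 - t i)) k +
        s * (Sum.elim w (fun i => - w i)) k) : Box (t + s • w) := by
  intro i
  have h1 := h (Sum.inl i)
  have h2 := h (Sum.inr i)
  simp only [Sum.elim_inl, Sum.elim_inr] at h1 h2
  simp only [Pi.add_apply, Pi.smul_apply, smul_eq_mul]
  constructor <;> linarith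

omit [Fintype ι] [DecidableEq ι] in
lemma exists_neg_of_ne_zero {w : ι → ℝ} (hw : w ≠ 0) : ∃ i, w i ≠ 0 := by
  by_contra h
  push Not at h
  exact hw (funext h)

/-- The constraint functional of one coordinate. -/
def eCoord (i : ι) : ι → ℝ := Pi.single i 1

lemma dot_eCoord (i : ι) (w : ι → ℝ) : dot (eCoord i) w = w i := by
  simp [dot, eCoord, Pi.single_apply]

/-- Kernel walk: all functionals of `F` stay fixed and at most `F.card` coordinates stay
fractional. -/
lemma kernel_walk (F : Finset (ι → ℝ)) :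
    ∀ (n : ℕ) (t : ι → ℝ), (frac t).card ≤ n → Box t → ∃ t', Box t' ∧
      (∀ i, i ∉ frac t → t' i = t i) ∧ (∀ φ ∈ F, dot φ t' = dot φ t) ∧
      (frac t').card ≤ F.card ∧ frac t' ⊆ frac t := by
  intro n
  induction n with
  | zero =>
    intro t ht hb
    refine ⟨t, hb, fun _ _ => rfl, fun _ _ => rfl, ?_, subset_rfl⟩
    omega
  | succ n ih =>
    intro t ht hb
    by_cases hsmall : (frac t).card ≤ F.card
    · exact ⟨t, hb, fun _ _ => rfl, fun _ _ => rfl, hsmall, subset_rfl⟩
    · push Not at hsmall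
      let G : Finset (ι → ℝ) := F ∪ ((univ \ frac t).image eCoord)
      have hGcard : G.card + 1 ≤ Fintype.card ι := by
        have h1 : G.card ≤ F.card + (univ \ frac t).card :=
          (Finset.card_union_le _ _).trans (by
            have := Finset.card_image_le (s := univ \ frac t) (f := (eCoord : ι → ι → ℝ))
            omega)
        have h2 : (univ \ frac t).card = Fintype.card ι - (frac t).card := by
          rw [Finset.card_sdiff_of_subset (Finset.subset_univ _), Finset.card_univ]
        have h3 : (frac t).card ≤ Fintype.card ι := Finset.card_le_univ _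
        omega
      obtain ⟨w, hw0, hwG, -⟩ := exists_small_rayleigh (ρ := Empty) G (fun e => e.elim) 1
        (by norm_num) hGcard
      have hwF : ∀ φ ∈ F, dot φ w = 0 := fun φ hφ => hwG φ (Finset.mem_union_left _ hφ)
      have hwoff : ∀ i, i ∉ frac t → w i = 0 := by
        intro i hi
        have := hwG (eCoord i) (Finset.mem_union_right _ (Finset.mem_image_of_mem _ (by simp [hi])))
        rwa [dot_eCoord] at this
      obtain ⟨i₀, hi₀⟩ := exists_neg_of_ne_zero hw0
      have hfrac_of : ∀ i, w i ≠ 0 → i ∈ frac t := by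
        intro i hi
        by_contra hn
        exact hi (hwoff i hn)
      obtain ⟨s, hs, hcons, k, hkneg, hktight⟩ := line_search
        (Sum.elim t (fun i => 1 - t i)) (Sum.elim w (fun i => - w i))
        (by
          intro k hk
          cases k with
          | inl i =>
            simp only [Sum.elim_inl] at hk ⊢
            exact (mem_frac.1 (hfrac_of i (ne_of_lt hk))).1
          | inr i =>
            simp only [Sum.elim_inr] at hk ⊢
            have := (mem_frac.1 (hfrac_of i (by intro h; simp [h] at hk))).2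
            linarith)
        (by
          intro k
          cases k with
          | inl i => simpa using (hb i).1
          | inr i => simpa using (hb i).2)
        (by
          rcases lt_or_gt_of_ne hi₀ with h | h
          · exact ⟨Sum.inl i₀, by simpa using h⟩
          · exact ⟨Sum.inr i₀, by simpa using h⟩)
      let t₁ : ι → ℝ := t + s • w
      have hb₁ : Box t₁ := box_of_constraints hcons
      have hoff₁ : ∀ i, i ∉ frac t → t₁ i = t i := by
        intro i hi
        simp [t₁, hwoff i hi]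
      have hsub₁ : frac t₁ ⊆ frac t := by
        intro i hi
        by_contra hn
        have := hoff₁ i hn
        have h2 := mem_frac.1 hi
        rw [this] at h2
        exact hn (mem_frac.2 h2)
      have hstrict : (frac t₁).card < (frac t).card := by
        apply Finset.card_lt_card
        refine ⟨hsub₁, ?_⟩
        intro hcontra
        cases k with
        | inl i =>
          simp only [Sum.elim_inl] at hkneg hktight
          have hi : i ∈ frac t := hfrac_of i (ne_of_lt hkneg)
          have h2 := mem_frac.1 (hcontra hi)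
          simp only [t₁, Pi.add_apply, Pi.smul_apply, smul_eq_mul] at h2
          linarith [h2.1]
        | inr i =>
          simp only [Sum.elim_inr] at hkneg hktight
          have hi : i ∈ frac t := hfrac_of i (by intro h; simp [h] at hkneg)
          have h2 := mem_frac.1 (hcontra hi)
          simp only [t₁, Pi.add_apply, Pi.smul_apply, smul_eq_mul] at h2
          linarith [h2.2]
      obtain ⟨t', hb', hoff', hdot', hcard', hsub'⟩ := ih t₁ (by omega) hb₁
      refine ⟨t', hb', ?_, ?_, hcard', hsub'.trans hsub₁⟩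
      · intro i hi
        rw [hoff' i (fun h => hi (hsub₁ h)), hoff₁ i hi]
      · intro φ hφ
        rw [hdot' φ hφ]
        simp only [t₁, dot_add_right, dot_smul_right, hwF φ hφ, mul_zero, add_zero]


section Phase

variable {ρ : Type*} [Fintype ρ] [DecidableEq ρ]

/-- Invariants of the freezing walk started at `t₀`. -/
structure PhaseInv (b : ρ → ι → ℝ) (Pm : Finset (ι → ℝ)) (t₀ t : ι → ℝ) : Prop where
  box : Box t
  off : ∀ i, i ∉ frac t₀ → t i = t₀ i
  perm : ∀ φ ∈ Pm, dot φ t = dot φ t₀
  row : ∀ r, |dot (b r) t - dot (b r) t₀| ≤ 1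
  pot : ∑ r, (dot (b r) t - dot (b r) t₀) ^ 2 ≤
    (1 / 4) * (∑ i, (t i - 1 / 2) ^ 2 - ∑ i, (t₀ i - 1 / 2) ^ 2)

/-- The rows that are not frozen yet. -/
noncomputable def nf (b : ρ → ι → ℝ) (t₀ t : ι → ℝ) : Finset ρ :=
  univ.filter fun r => |dot (b r) t - dot (b r) t₀| < 1

lemma PhaseInv.frac_subset {b : ρ → ι → ℝ} {Pm : Finset (ι → ℝ)} {t₀ t : ι → ℝ}
    (h : PhaseInv b Pm t₀ t) : frac t ⊆ frac t₀ := by
  intro i hi
  by_contra hn
  have h1 := h.off i hn
  have h2 := mem_frac.1 hi
  rw [h1] at h2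
  exact hn (mem_frac.2 h2)

lemma PhaseInv.diff_le {b : ρ → ι → ℝ} {Pm : Finset (ι → ℝ)} {t₀ t : ι → ℝ}
    (h : PhaseInv b Pm t₀ t) :
    ∑ i, (t i - 1 / 2) ^ 2 - ∑ i, (t₀ i - 1 / 2) ^ 2 ≤ ((frac t₀).card : ℝ) / 4 := by
  rw [← Finset.sum_sub_distrib]
  calc ∑ i, ((t i - 1 / 2) ^ 2 - (t₀ i - 1 / 2) ^ 2)
      ≤ ∑ i, (if i ∈ frac t₀ then (1 / 4 : ℝ) else 0) := by
        refine Finset.sum_le_sum fun i _ => ?_
        split_ifs with hi
        · have h1 := h.box i
          nlinarith [sq_nonneg (t₀ i - 1 / 2), h1.1, h1.2]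
        · rw [h.off i hi]
          simp
    _ = ((frac t₀).card : ℝ) / 4 := by
        rw [Finset.sum_ite_mem, Finset.univ_inter, Finset.sum_const, nsmul_eq_mul]
        ring

lemma PhaseInv.sum_le {b : ρ → ι → ℝ} {Pm : Finset (ι → ℝ)} {t₀ t : ι → ℝ}
    (h : PhaseInv b Pm t₀ t) :
    ∑ r, (dot (b r) t - dot (b r) t₀) ^ 2 ≤ ((frac t₀).card : ℝ) / 16 := by
  have h1 := h.pot
  have h2 := h.diff_le
  linarith

/-- One step of the freezing walk. -/
lemma phase_step (b : ρ → ι → ℝ) (Pm : Finset (ι → ℝ)) (t₀ t : ι → ℝ) (a : ℕ)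
    (ha : a = (frac t₀).card) (ha22 : 22 ≤ a) (hPm : Pm.card ≤ 2)
    (htrace : ∑ r, ∑ i ∈ frac t₀, (b r i) ^ 2 ≤ (a : ℝ) / 16)
    (h : PhaseInv b Pm t₀ t) (hbig : a < 2 * (frac t).card) :
    ∃ t₁, PhaseInv b Pm t₀ t₁ ∧
      (frac t₁).card + (nf b t₀ t₁).card < (frac t).card + (nf b t₀ t).card := by
  classical
  set n : ρ → ℝ := fun r => dot (b r) t - dot (b r) t₀ with hn
  have hS : ∑ r, (n r) ^ 2 ≤ (a : ℝ) / 16 := by
    rw [ha]; exact h.sum_le
  let Z : Finset ρ := univ.filter fun r => |n r| = 1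
  have hZcard : 16 * Z.card ≤ a := by
    have h1 : (Z.card : ℝ) ≤ ∑ r, (n r) ^ 2 := by
      calc (Z.card : ℝ) = ∑ r ∈ Z, (1 : ℝ) := by simp
        _ = ∑ r ∈ Z, (n r) ^ 2 := by
            refine Finset.sum_congr rfl fun r hr => ?_
            have h2 : |n r| = 1 := by simpa [Z] using hr
            rw [← sq_abs, h2]; norm_num
        _ ≤ ∑ r, (n r) ^ 2 :=
            Finset.sum_le_sum_of_subset_of_nonneg (Finset.subset_univ _)
              (fun _ _ _ => sq_nonneg _)
    have h2 : (16 * Z.card : ℝ) ≤ a := by linarith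
    exact_mod_cast h2
  let gS : ι → ℝ := fun i => ∑ r, n r * b r i
  let gY : ι → ℝ := fun i => t i - 1 / 2
  let G : Finset (ι → ℝ) :=
    (Pm ∪ {gS, gY}) ∪ (Z.image b ∪ (univ \ frac t).image eCoord)
  set f := (frac t).card with hf
  have hcardι : f ≤ Fintype.card ι := Finset.card_le_univ _
  have hGcard : G.card ≤ 4 + Z.card + (Fintype.card ι - f) := by
    have h1 : (Pm ∪ {gS, gY}).card ≤ 4 := by
      have h2 := Finset.card_union_le Pm ({gS, gY} : Finset (ι → ℝ))
      have h3 : ({gS, gY} : Finset (ι → ℝ)).card ≤ 2 := Finset.card_le_two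
      omega
    have h4 : (Z.image b ∪ (univ \ frac t).image eCoord).card
        ≤ Z.card + (Fintype.card ι - f) := by
      have h5 := Finset.card_union_le (Z.image b) ((univ \ frac t).image (eCoord : ι → ι → ℝ))
      have h6 : (Z.image b).card ≤ Z.card := Finset.card_image_le
      have h7 : ((univ \ frac t).image (eCoord : ι → ι → ℝ)).card ≤ (univ \ frac t).card :=
        Finset.card_image_le
      have h8 : (univ \ frac t).card = Fintype.card ι - f := by
        rw [Finset.card_sdiff_of_subset (Finset.subset_univ _), Finset.card_univ]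
      omega
    have h9 : G.card ≤ (Pm ∪ {gS, gY}).card + (Z.image b ∪ (univ \ frac t).image eCoord).card :=
      Finset.card_union_le _ _
    omega
  let k : ℕ := f - Z.card - 4
  have hkpos : 0 < k := by
    simp only [k]
    omega
  have hkcard : G.card + k ≤ Fintype.card ι := by
    simp only [k]
    omega
  have hak : a ≤ 4 * k := by
    simp only [k]
    omega
  let b' : ρ → ι → ℝ := fun r i => if i ∈ frac t then b r i else 0
  obtain ⟨w, hw0, hwG, hray⟩ := exists_small_rayleigh G b' k hkpos hkcard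
  have hwPm : ∀ φ ∈ Pm, dot φ w = 0 := fun φ hφ =>
    hwG φ (Finset.mem_union_left _ (Finset.mem_union_left _ hφ))
  have hwS : dot gS w = 0 := hwG gS (Finset.mem_union_left _ (Finset.mem_union_right _ (by simp)))
  have hwY : dot gY w = 0 := hwG gY (Finset.mem_union_left _ (Finset.mem_union_right _ (by simp)))
  have hwZ : ∀ r, r ∈ Z → dot (b r) w = 0 := fun r hr =>
    hwG (b r) (Finset.mem_union_right _ (Finset.mem_union_left _ (Finset.mem_image_of_mem _ hr)))
  have hwoff : ∀ i, i ∉ frac t → w i = 0 := by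
    intro i hi
    have := hwG (eCoord i) (Finset.mem_union_right _ (Finset.mem_union_right _
      (Finset.mem_image_of_mem _ (by simp [hi]))))
    rwa [dot_eCoord] at this
  have hdot' : ∀ r, dot (b' r) w = dot (b r) w := by
    intro r
    refine Finset.sum_congr rfl fun i _ => ?_
    by_cases hi : i ∈ frac t
    · simp [b', hi]
    · simp [b', hi, hwoff i hi]
  have htr' : ∑ r, ∑ i, (b' r i) ^ 2 ≤ (a : ℝ) / 16 := by
    refine le_trans (Finset.sum_le_sum fun r _ => ?_) htrace
    calc ∑ i, (b' r i) ^ 2 = ∑ i ∈ frac t, (b r i) ^ 2 := by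
          simp only [b', ite_pow, zero_pow (two_ne_zero), Finset.sum_ite_mem, Finset.univ_inter]
      _ ≤ ∑ i ∈ frac t₀, (b r i) ^ 2 :=
          Finset.sum_le_sum_of_subset_of_nonneg h.frac_subset (fun _ _ _ => sq_nonneg _)
  set c : ρ → ℝ := fun r => dot (b r) w with hc
  set W2 : ℝ := ∑ i, (w i) ^ 2 with hW2
  have hW2nn : 0 ≤ W2 := Finset.sum_nonneg fun _ _ => sq_nonneg _
  have hQ : ∑ r, (c r) ^ 2 ≤ (1 / 4) * W2 := by
    have h1 : (k : ℝ) * ∑ r, (c r) ^ 2 ≤ ((a : ℝ) / 16) * W2 := by
      have h2 := hray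
      simp only [hdot'] at h2
      exact le_trans h2 (mul_le_mul_of_nonneg_right htr' hW2nn)
    have h3 : (a : ℝ) ≤ 4 * k := by exact_mod_cast hak
    have hapos : (0 : ℝ) < a := by
      have : 0 < a := by omega
      exact_mod_cast this
    have hQnn : 0 ≤ ∑ r, (c r) ^ 2 := Finset.sum_nonneg fun _ _ => sq_nonneg _
    have h4 : (a : ℝ) * ∑ r, (c r) ^ 2 ≤ (a : ℝ) * ((1 / 4) * W2) := by
      nlinarith
    exact le_of_mul_le_mul_left h4 hapos
  have hfrac_of : ∀ i, w i ≠ 0 → i ∈ frac t := by
    intro i hi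
    by_contra hn'
    exact hi (hwoff i hn')
  have hnle : ∀ r, |n r| ≤ 1 := h.row
  have hnlt : ∀ r, c r ≠ 0 → |n r| < 1 := by
    intro r hr
    refine lt_of_le_of_ne (hnle r) ?_
    intro heq
    exact hr (hwZ r (by simp [Z, heq]))
  obtain ⟨i₀, hi₀⟩ := exists_neg_of_ne_zero hw0
  let α : (ι ⊕ ι) ⊕ (ρ ⊕ ρ) → ℝ :=
    Sum.elim (Sum.elim t (fun i => 1 - t i)) (Sum.elim (fun r => 1 - n r) (fun r => 1 + n r))
  let β : (ι ⊕ ι) ⊕ (ρ ⊕ ρ) → ℝ :=
    Sum.elim (Sum.elim w (fun i => - w i)) (Sum.elim (fun r => - c r) (fun r => c r))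
  obtain ⟨s, hs, hcons, k₀, hkneg, hktight⟩ := line_search α β
    (by
      intro k' hk'
      rcases k' with (i | i) | (r | r)
      · simp only [α, β, Sum.elim_inl] at hk' ⊢
        exact (mem_frac.1 (hfrac_of i (ne_of_lt hk'))).1
      · simp only [α, β, Sum.elim_inl, Sum.elim_inr] at hk' ⊢
        have := (mem_frac.1 (hfrac_of i (by intro h0; simp [h0] at hk'))).2
        linarith
      · simp only [α, β, Sum.elim_inl, Sum.elim_inr] at hk' ⊢
        have h1 := abs_lt.1 (hnlt r (by intro h0; simp [h0] at hk'))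
        linarith [h1.2]
      · simp only [α, β, Sum.elim_inr] at hk' ⊢
        have h1 := abs_lt.1 (hnlt r (ne_of_lt hk'))
        linarith [h1.1])
    (by
      intro k'
      rcases k' with (i | i) | (r | r)
      · simpa [α] using (h.box i).1
      · simpa [α] using (h.box i).2
      · have h1 := abs_le.1 (hnle r)
        simp only [α, Sum.elim_inl, Sum.elim_inr]
        linarith [h1.2]
      · have h1 := abs_le.1 (hnle r)
        simp only [α, Sum.elim_inr]
        linarith [h1.1])
    (by
      rcases lt_or_gt_of_ne hi₀ with h1 | h1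
      · exact ⟨Sum.inl (Sum.inl i₀), by simpa [β] using h1⟩
      · exact ⟨Sum.inl (Sum.inr i₀), by simpa [β] using h1⟩)
  let t₁ : ι → ℝ := t + s • w
  have hn₁ : ∀ r, dot (b r) t₁ - dot (b r) t₀ = n r + s * c r := by
    intro r
    simp only [t₁, dot_add_right, dot_smul_right, hn, hc]
    ring
  have hnsum : ∑ r, n r * c r = 0 := by
    have h1 : dot gS w = ∑ r, n r * c r := by
      simp only [dot, gS, hc, Finset.sum_mul, Finset.mul_sum]
      rw [Finset.sum_comm]
      refine Finset.sum_congr rfl fun r _ => Finset.sum_congr rfl fun i _ => by ring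
    rw [← h1, hwS]
  have hysum : ∑ i, (t i - 1 / 2) * w i = 0 := hwY
  refine ⟨t₁, ?_, ?_⟩
  · refine ⟨?_, ?_, ?_, ?_, ?_⟩
    · intro i
      have h1 := hcons (Sum.inl (Sum.inl i))
      have h2 := hcons (Sum.inl (Sum.inr i))
      simp only [α, β, Sum.elim_inl, Sum.elim_inr] at h1 h2
      simp only [t₁, Pi.add_apply, Pi.smul_apply, smul_eq_mul]
      constructor <;> linarith
    · intro i hi
      have h1 : i ∉ frac t := fun hmem => hi (h.frac_subset hmem)
      simp [t₁, hwoff i h1, h.off i hi]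
    · intro φ hφ
      simp only [t₁, dot_add_right, dot_smul_right, hwPm φ hφ, mul_zero, add_zero]
      exact h.perm φ hφ
    · intro r
      rw [hn₁, abs_le]
      have h1 := hcons (Sum.inr (Sum.inl r))
      have h2 := hcons (Sum.inr (Sum.inr r))
      simp only [α, β, Sum.elim_inl, Sum.elim_inr] at h1 h2
      constructor <;> linarith
    · have h1 : ∑ r, (dot (b r) t₁ - dot (b r) t₀) ^ 2
          = ∑ r, (n r) ^ 2 + s ^ 2 * ∑ r, (c r) ^ 2 := by
        calc ∑ r, (dot (b r) t₁ - dot (b r) t₀) ^ 2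
            = ∑ r, ((n r) ^ 2 + 2 * s * (n r * c r) + s ^ 2 * (c r) ^ 2) := by
              refine Finset.sum_congr rfl fun r _ => ?_
              rw [hn₁]; ring
          _ = _ := by
              rw [Finset.sum_add_distrib, Finset.sum_add_distrib, ← Finset.mul_sum,
                ← Finset.mul_sum, hnsum]
              ring
      have h2 : ∑ i, (t₁ i - 1 / 2) ^ 2 = ∑ i, (t i - 1 / 2) ^ 2 + s ^ 2 * W2 := by
        calc ∑ i, (t₁ i - 1 / 2) ^ 2
            = ∑ i, ((t i - 1 / 2) ^ 2 + 2 * s * ((t i - 1 / 2) * w i) + s ^ 2 * (w i) ^ 2) := by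
              refine Finset.sum_congr rfl fun i _ => ?_
              simp only [t₁, Pi.add_apply, Pi.smul_apply, smul_eq_mul]
              ring
          _ = _ := by
              rw [Finset.sum_add_distrib, Finset.sum_add_distrib, ← Finset.mul_sum,
                ← Finset.mul_sum, hysum]
              ring
      rw [h1, h2]
      have h3 := h.pot
      have hs2 : 0 ≤ s ^ 2 := sq_nonneg s
      have h4 := mul_le_mul_of_nonneg_left hQ hs2
      simp only [n] at h4 ⊢
      nlinarith
  · have hsubf : frac t₁ ⊆ frac t := by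
      intro i hi
      by_contra hn'
      have h1 : t₁ i = t i := by simp [t₁, hwoff i hn']
      have h2 := mem_frac.1 hi
      rw [h1] at h2
      exact hn' (mem_frac.2 h2)
    have hsubn : nf b t₀ t₁ ⊆ nf b t₀ t := by
      intro r hr
      simp only [nf, Finset.mem_filter, Finset.mem_univ, true_and] at hr ⊢
      rw [hn₁] at hr
      by_contra hn'
      have h1 : |n r| = 1 := le_antisymm (hnle r) (not_lt.1 hn')
      have h2 : c r = 0 := hwZ r (by simp [Z, h1])
      rw [h2, mul_zero, add_zero, h1] at hr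
      exact lt_irrefl _ hr
    have hle1 := Finset.card_le_card hsubf
    have hle2 := Finset.card_le_card hsubn
    rcases k₀ with (i | i) | (r | r)
    · have hlt : (frac t₁).card < (frac t).card := by
        apply Finset.card_lt_card
        refine ⟨hsubf, fun hcontra => ?_⟩
        simp only [α, β, Sum.elim_inl] at hkneg hktight
        have hi : i ∈ frac t := hfrac_of i (ne_of_lt hkneg)
        have h2 := mem_frac.1 (hcontra hi)
        simp only [t₁, Pi.add_apply, Pi.smul_apply, smul_eq_mul] at h2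
        linarith [h2.1]
      omega
    · have hlt : (frac t₁).card < (frac t).card := by
        apply Finset.card_lt_card
        refine ⟨hsubf, fun hcontra => ?_⟩
        simp only [α, β, Sum.elim_inl, Sum.elim_inr] at hkneg hktight
        have hi : i ∈ frac t := hfrac_of i (by intro h0; simp [h0] at hkneg)
        have h2 := mem_frac.1 (hcontra hi)
        simp only [t₁, Pi.add_apply, Pi.smul_apply, smul_eq_mul] at h2
        linarith [h2.2]
      omega
    · have hlt : (nf b t₀ t₁).card < (nf b t₀ t).card := by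
        apply Finset.card_lt_card
        refine ⟨hsubn, fun hcontra => ?_⟩
        simp only [α, β, Sum.elim_inl, Sum.elim_inr] at hkneg hktight
        have hr0 : c r ≠ 0 := by intro h0; simp [h0] at hkneg
        have hmem : r ∈ nf b t₀ t := by
          simp only [nf, Finset.mem_filter, Finset.mem_univ, true_and]
          exact hnlt r hr0
        have h2 := hcontra hmem
        simp only [nf, Finset.mem_filter, Finset.mem_univ, true_and] at h2
        rw [hn₁] at h2
        have h3 := abs_lt.1 h2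
        linarith [h3.2]
      omega
    · have hlt : (nf b t₀ t₁).card < (nf b t₀ t).card := by
        apply Finset.card_lt_card
        refine ⟨hsubn, fun hcontra => ?_⟩
        simp only [α, β, Sum.elim_inr] at hkneg hktight
        have hr0 : c r ≠ 0 := ne_of_lt hkneg
        have hmem : r ∈ nf b t₀ t := by
          simp only [nf, Finset.mem_filter, Finset.mem_univ, true_and]
          exact hnlt r hr0
        have h2 := hcontra hmem
        simp only [nf, Finset.mem_filter, Finset.mem_univ, true_and] at h2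
        rw [hn₁] at h2
        have h3 := abs_lt.1 h2
        linarith [h3.1]
      omega

/-- The freezing walk halves the number of fractional coordinates. -/
lemma phase_walk (b : ρ → ι → ℝ) (Pm : Finset (ι → ℝ)) (t₀ : ι → ℝ) (a : ℕ)
    (ha : a = (frac t₀).card) (ha22 : 22 ≤ a) (hPm : Pm.card ≤ 2)
    (htrace : ∑ r, ∑ i ∈ frac t₀, (b r i) ^ 2 ≤ (a : ℝ) / 16) (hb : Box t₀) :
    ∃ t, PhaseInv b Pm t₀ t ∧ 2 * (frac t).card ≤ a := by
  have key : ∀ (M : ℕ) (t : ι → ℝ), PhaseInv b Pm t₀ t →
      (frac t).card + (nf b t₀ t).card ≤ M → ∃ t', PhaseInv b Pm t₀ t' ∧ 2 * (frac t').card ≤ a := by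
    intro M
    induction M with
    | zero =>
      intro t ht hM
      refine ⟨t, ht, ?_⟩
      omega
    | succ M ih =>
      intro t ht hM
      by_cases hsmall : 2 * (frac t).card ≤ a
      · exact ⟨t, ht, hsmall⟩
      · obtain ⟨t₁, ht₁, hlt⟩ := phase_step b Pm t₀ t a ha ha22 hPm htrace ht (by omega)
        exact ih t₁ ht₁ (by omega)
  refine key _ t₀ ⟨hb, fun _ _ => rfl, fun _ _ => rfl, ?_, ?_⟩ le_rfl
  · intro r; simp
  · simp

end Phase

end Vale.Agent.Lib.P262B
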